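import Crest.Agent.H0154.Words

/-! Random sparse labelled graphs with no long common words. -/

set_option autoImplicit false

namespace Crest.Agent.H0154

open Finset

/-- a finite labelled graph over the labelled set `S`; a fixed point of `t j` is a missing edge -/
structure Gr {ι S : Type} (s : ι → S → S) where
  V : Type
  fin : Fintype V
  t : ι → V → V
  π : V → S
  inv : ∀ j x, t j (t j x) = x
  compat : ∀ j x, t j x ≠ x → π (t j x) = s j (π x)
  surj : Function.Surjective π

instance {ι S : Type} {s : ι → S → S} (G : Gr s) : Fintype G.V := G.fin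

open Classical in
/-- oriented edges -/
noncomputable def Gr.E {ι S : Type} [Fintype ι] {s : ι → S → S} (G : Gr s) : Finset (G.V × ι) :=
  univ.filter (fun q => G.t q.2 q.1 ≠ q.1)

theorem Gr.mem_E {ι S : Type} [Fintype ι] {s : ι → S → S} (G : Gr s) (q : G.V × ι) :
    q ∈ G.E ↔ G.t q.2 q.1 ≠ q.1 := by simp [Gr.E]

/-- at most one label of each group at each vertex -/
def Gr.Sparse {Γ C S : Type} {s : Γ × C → S → S} (G : Gr s) : Prop :=
  ∀ x j j', G.t j x ≠ x → G.t j' x ≠ x → j.1 = j'.1 → j = j'

/-- no long common reduced word -/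
def Gr.Apart {ι S : Type} {s : ι → S → S} (G G' : Gr s) : Prop :=
  ∃ l : ℕ, ∀ v x y, Red v → v.length = l → Opn G.t v x → Opn G'.t v y → False

theorem cnt {Z C : Type} [Fintype Z] [DecidableEq Z] [Fintype C] [DecidableEq C] (S : Finset Z)
    (c0 : Z → C) :
    (univ.filter (fun c : Z → C => ∀ z ∈ S, c z = c0 z)).card * Fintype.card C ^ S.card =
      Fintype.card C ^ Fintype.card Z := by
  have : univ.filter (fun c : Z → C => ∀ z ∈ S, c z = c0 z) =
      Fintype.piFinset (fun z => if z ∈ S then {c0 z} else univ) := by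
    ext c
    simp only [mem_filter, mem_univ, true_and, Fintype.mem_piFinset]
    refine forall_congr' fun z => ?_
    split_ifs with h <;> simp [h]
  rw [this, Fintype.card_piFinset]
  have e : ∀ z, (if z ∈ S then ({c0 z} : Finset C) else univ).card =
      if z ∈ S then 1 else Fintype.card C := by
    intro z; split_ifs <;> simp
  simp only [e]
  rw [prod_ite, prod_const_one, one_mul, prod_const, ← pow_add]
  congr 1
  have := card_filter_add_card_filter_not (s := (univ : Finset Z)) (fun z => z ∈ S)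
  simp only [filter_mem_eq_inter, univ_inter, card_univ] at this
  omega

section rand

variable {Γ C X : Type} (t0 : Γ × C → X → X)

/-- the edge `(x, j)` is open for the colouring `c` -/
def opn (c : X × Γ → C) (j : Γ × C) (x : X) : Prop := c (x, j.1) = j.2 ∧ c (t0 j x, j.1) = j.2

open Classical in
noncomputable def tc (c : X × Γ → C) (j : Γ × C) (x : X) : X := if opn t0 c j x then t0 j x else x

theorem tc_ne {c : X × Γ → C} {j : Γ × C} {x : X} (h : tc t0 c j x ≠ x) :
    opn t0 c j x ∧ tc t0 c j x = t0 j x := by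
  unfold tc at h ⊢
  split_ifs at h ⊢ with h1
  · exact ⟨h1, rfl⟩
  · exact absurd rfl h

open Classical in
/-- the colours read along a word -/
noncomputable def SS (v : List (Γ × C)) : X → Finset (X × Γ) :=
  List.rec (fun _ => ∅) (fun j _ ih x => insert (x, j.1) (insert (t0 j x, j.1) (ih (t0 j x)))) v

theorem SS_nil (x : X) : SS t0 [] x = ∅ := rfl

open Classical in
theorem SS_cons (j : Γ × C) (v : List (Γ × C)) (x : X) :
    SS t0 (j :: v) x = insert (x, j.1) (insert (t0 j x, j.1) (SS t0 v (t0 j x))) := rfl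

open Classical in
theorem SS_agree {c c0 : X × Γ → C} (v : List (Γ × C)) (x : X) (h : Opn (tc t0 c) v x)
    (h0 : Opn (tc t0 c0) v x) : ∀ z ∈ SS t0 v x, c z = c0 z := by
  induction v generalizing x with
  | nil => intro z hz; simp [SS_nil] at hz
  | cons j v ih =>
    obtain ⟨a1, a2⟩ := tc_ne t0 h.1
    obtain ⟨b1, b2⟩ := tc_ne t0 h0.1
    have h' := h.2
    have h0' := h0.2
    rw [a2] at h'
    rw [b2] at h0'
    intro z hz
    rw [SS_cons, mem_insert, mem_insert] at hz
    rcases hz with rfl | rfl | hz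
    · rw [a1.1, b1.1]
    · rw [a1.2, b1.2]
    · exact ih _ h' h0' z hz

open Classical in
theorem SS_mem (v : List (Γ × C)) (x : X) : ∀ z ∈ SS t0 v x, ∃ w, w <+: v ∧ z.1 = act t0 w x ∧
    (w = [] → ∃ j, v.head? = some j ∧ z.2 = j.1) := by
  induction v generalizing x with
  | nil => intro z hz; simp [SS_nil] at hz
  | cons j v ih =>
    intro z hz
    rw [SS_cons, mem_insert, mem_insert] at hz
    rcases hz with rfl | rfl | hz
    · exact ⟨[], List.nil_prefix, rfl, fun _ => ⟨j, rfl, rfl⟩⟩
    · exact ⟨[j], by simp, rfl, fun h => by simp at h⟩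
    · obtain ⟨w, h1, h2, _⟩ := ih _ z hz
      exact ⟨j :: w, by simpa using h1, h2, fun h => by simp at h⟩

open Classical in
theorem SS_card {R : ℕ} (hI : Inj t0 R) (v : List (Γ × C)) (x : X) (hv : Red v)
    (hl : v.length ≤ R) (hg : v.IsChain (fun a b => a.1 ≠ b.1)) :
    (SS t0 v x).card = 2 * v.length := by
  induction v generalizing x with
  | nil => rfl
  | cons j v ih =>
    rw [List.length_cons] at hl
    have hmove : t0 j x ≠ x := hI.move (by omega) j x
    rw [SS_cons, card_insert_of_notMem, card_insert_of_notMem,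
      ih _ (red_cons.1 hv).2 (by omega) hg.tail, List.length_cons]
    · ring
    · intro hz
      obtain ⟨w, h1, h2, h3⟩ := SS_mem t0 v _ _ hz
      have hw : [] = w := hI (t0 j x) [] w red_nil (List.IsChain.prefix (red_cons.1 hv).2 h1)
        (Nat.zero_le _) (h1.length_le.trans (by omega)) h2
      obtain ⟨j', e1, e2⟩ := h3 hw.symm
      exact (List.isChain_cons.1 hg).1 j' e1 e2
    · intro hz
      rcases mem_insert.1 hz with hz | hz
      · exact hmove (congrArg Prod.fst hz).symm
      · obtain ⟨w, h1, h2, _⟩ := SS_mem t0 v _ _ hz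
        have hp : j :: w <+: j :: v := by simpa using h1
        have := hI x [] (j :: w) red_nil (List.IsChain.prefix hv hp) (Nat.zero_le _)
          (hp.length_le.trans (by rw [List.length_cons]; omega)) h2
        simp at this

variable [Fintype Γ] [DecidableEq Γ] [Fintype C] [DecidableEq C] [Fintype X] [DecidableEq X]

open Classical in
theorem cnt_path {R : ℕ} (hI : Inj t0 R) (v : List (Γ × C)) (x : X) (hv : Red v)
    (hl : v.length ≤ R) (hg : v.IsChain (fun a b => a.1 ≠ b.1)) :
    (univ.filter (fun c : X × Γ → C => Opn (tc t0 c) v x)).card *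
      Fintype.card C ^ (2 * v.length) ≤ Fintype.card C ^ Fintype.card (X × Γ) := by
  by_cases hne : (univ.filter (fun c : X × Γ → C => Opn (tc t0 c) v x)).Nonempty
  · obtain ⟨c0, h0⟩ := hne
    rw [← cnt (SS t0 v x) c0, SS_card t0 hI v x hv hl hg]
    refine Nat.mul_le_mul_right _ (card_le_card fun c hc => ?_)
    exact mem_filter.2 ⟨mem_univ _, SS_agree t0 v x (mem_filter.1 hc).2 (mem_filter.1 h0).2⟩
  · rw [not_nonempty_iff_eq_empty.1 hne]; simp

open Classical in
theorem cnt_edge (j : Γ × C) (x : X) (h : t0 j x ≠ x) :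
    (univ.filter (fun c : X × Γ → C => opn t0 c j x)).card * Fintype.card C ^ 2 =
      Fintype.card C ^ Fintype.card (X × Γ) := by
  have hc : ({(x, j.1), (t0 j x, j.1)} : Finset (X × Γ)).card = 2 :=
    card_pair (fun e => h (congrArg Prod.fst e).symm)
  rw [← cnt {(x, j.1), (t0 j x, j.1)} (fun _ => j.2), hc]
  congr 2
  ext c
  simp [opn]

open Classical in
theorem exists_colouring [Nonempty C] {l : ℕ} (hl : 1 ≤ l) (hI : Inj t0 l)
    (W : Finset (List (Γ × C)))
    (hW : ∀ v ∈ W, Red v ∧ v.length = l ∧ v.IsChain (fun a b => a.1 ≠ b.1))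
    (hc : W.card ≤ Fintype.card C ^ (2 * l)) :
    ∃ c : X × Γ → C, Fintype.card X * Fintype.card Γ + 2 * Fintype.card C *
        ((univ ×ˢ W).filter (fun q : X × List (Γ × C) => Opn (tc t0 c) q.2 q.1)).card ≤
      Fintype.card C * (univ.filter (fun q : X × (Γ × C) => opn t0 c q.2 q.1)).card +
        2 * Fintype.card C * Fintype.card X := by
  obtain ⟨m, hm⟩ : ∃ m, m = Fintype.card C := ⟨_, rfl⟩
  obtain ⟨N, hN⟩ : ∃ N, N = Fintype.card C ^ Fintype.card (X × Γ) := ⟨_, rfl⟩
  have hm0 : 0 < m := hm ▸ Fintype.card_pos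
  have hcard : (univ : Finset (X × Γ → C)).card = N := by rw [hN, card_univ, Fintype.card_fun]
  have h1 : ∑ c : X × Γ → C, m * (univ.filter (fun q : X × (Γ × C) => opn t0 c q.2 q.1)).card =
      N * (Fintype.card X * Fintype.card Γ) := by
    apply Nat.eq_of_mul_eq_mul_left hm0
    rw [← mul_sum, ← mul_assoc, ← sq]
    simp only [card_filter]
    rw [sum_comm, mul_sum]
    rw [sum_congr rfl (g := fun _ => N) (fun q _ => by
      rw [← card_filter, mul_comm, hm, hN]; exact cnt_edge t0 q.2 q.1 (hI.move hl _ _))]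
    rw [sum_const, card_univ, smul_eq_mul, Fintype.card_prod, Fintype.card_prod, ← hm]
    ring
  have h2 : ∑ c : X × Γ → C,
      ((univ ×ˢ W).filter (fun q : X × List (Γ × C) => Opn (tc t0 c) q.2 q.1)).card ≤
      N * Fintype.card X := by
    apply Nat.le_of_mul_le_mul_left (c := m ^ (2 * l)) _ (pow_pos hm0 _)
    simp only [card_filter]
    rw [sum_comm, mul_sum]
    refine (sum_le_sum (g := fun _ => N) (fun q hq => ?_)).trans ?_
    · obtain ⟨a1, a2, a3⟩ := hW _ (mem_product.1 hq).2
      rw [← card_filter, mul_comm, hm, hN, ← a2]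
      exact cnt_path t0 hI q.2 q.1 a1 a2.le a3
    · rw [sum_const, card_product, card_univ, smul_eq_mul, hm]
      calc Fintype.card X * W.card * N ≤ Fintype.card X * Fintype.card C ^ (2 * l) * N :=
            Nat.mul_le_mul_right _ (Nat.mul_le_mul_left _ hc)
        _ = _ := by ring
  rw [← hm]
  obtain ⟨c, _, hc⟩ := exists_le_of_sum_le (s := (univ : Finset (X × Γ → C))) univ_nonempty
    (f := fun c => Fintype.card X * Fintype.card Γ + 2 * m *
        ((univ ×ˢ W).filter (fun q : X × List (Γ × C) => Opn (tc t0 c) q.2 q.1)).card)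
    (g := fun c => m * (univ.filter (fun q : X × (Γ × C) => opn t0 c q.2 q.1)).card +
        2 * m * Fintype.card X) (by
      rw [sum_add_distrib, sum_add_distrib, h1, sum_const, sum_const, hcard,
        smul_eq_mul, smul_eq_mul, ← mul_sum]
      have := Nat.mul_le_mul_left (2 * m) h2
      nlinarith)
  exact ⟨c, hc⟩

end rand

theorem card_heads {X ι : Type} [Fintype X] [Fintype ι] [DecidableEq X] [DecidableEq ι]
    (B : Finset (X × List ι)) [DecidablePred fun q : X × ι => ∃ v, (q.1, q.2 :: v) ∈ B] :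
    (univ.filter (fun q : X × ι => ∃ v, (q.1, q.2 :: v) ∈ B)).card ≤ B.card := by
  refine le_trans (card_le_card_of_injOn (t := B.image (fun b => (b.1, b.2.head?)))
    (fun q => (q.1, some q.2)) ?_ ?_) card_image_le
  · intro q hq
    obtain ⟨v, hv⟩ := (mem_filter.1 (mem_coe.1 hq)).2
    exact mem_coe.2 (mem_image.2 ⟨_, hv, rfl⟩)
  · rintro ⟨x, j⟩ _ ⟨x', j'⟩ _ h
    simpa using h

theorem exists_rand {Γ C S : Type} [Fintype Γ] [Fintype C] [Nonempty C] [Fintype S]
    (s : Γ × C → S → S) (hs : ∀ j x, s j (s j x) = x) {l : ℕ} (hl : 1 ≤ l)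
    (W : Finset (List (Γ × C)))
    (hW : ∀ v ∈ W, Red v ∧ v.length = l ∧ v.IsChain (fun a b => a.1 ≠ b.1))
    (hc : W.card ≤ Fintype.card C ^ (2 * l)) :
    ∃ G : Gr s, G.Sparse ∧ (∀ v ∈ W, ∀ x, ¬ Opn G.t v x) ∧
      Fintype.card G.V * Fintype.card Γ ≤ Fintype.card C * (G.E.card + 2 * Fintype.card G.V) := by
  classical
  obtain ⟨X, _, t0, π, h1, hI, h3, h4⟩ := exists_cover s hs l
  obtain ⟨c, hcol⟩ := exists_colouring t0 hl hI W hW hc
  obtain ⟨B, hB⟩ : ∃ B, B = (univ ×ˢ W).filter
    (fun q : X × List (Γ × C) => Opn (tc t0 c) q.2 q.1) := ⟨_, rfl⟩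
  rw [← hB] at hcol
  let del : X → Γ × C → Prop := fun x j => ∃ v, (x, j :: v) ∈ B
  let ok : Γ × C → X → Prop := fun j x => opn t0 c j x ∧ ¬ del x j ∧ ¬ del (t0 j x) j
  let t : Γ × C → X → X := fun j x => if ok j x then t0 j x else x
  have hne : ∀ j x, t j x ≠ x → ok j x ∧ t j x = t0 j x := by
    intro j x h
    by_cases h' : ok j x
    · exact ⟨h', if_pos h'⟩
    · exact absurd (if_neg h') h
  have hok : ∀ j x, ok j x → ok j (t0 j x) := by
    rintro j x ⟨⟨a1, a2⟩, a3, a4⟩
    refine ⟨⟨a2, ?_⟩, a4, ?_⟩ <;> rw [h1] <;> assumption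
  have hinv : ∀ j x, t j (t j x) = x := by
    intro j x
    by_cases h : ok j x
    · have e : t j x = t0 j x := if_pos h
      rw [e]
      exact (if_pos (hok j x h)).trans (h1 j x)
    · have e : t j x = x := if_neg h
      rw [e, e]
  have hopn : ∀ v x, Opn t v x → Opn (tc t0 c) v x := by
    intro v
    induction v with
    | nil => intro x _; trivial
    | cons j v ih =>
      intro x h
      obtain ⟨a1, a2⟩ := hne j x h.1
      have e : tc t0 c j x = t j x := by rw [a2]; exact if_pos a1.1
      rw [opn_cons, e]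
      exact ⟨h.1, ih _ h.2⟩
  refine ⟨⟨X, inferInstance, t, π, hinv, fun j x h => by rw [(hne j x h).2, h4], h3⟩, ?_, ?_, ?_⟩
  · intro x j j' a b e
    have a1 := (hne j x a).1.1.1
    have b1 := (hne j' x b).1.1.1
    exact Prod.ext e (by rw [← a1, ← b1, e])
  · intro v hv x h
    have hB' : (x, v) ∈ B := by
      rw [hB]; exact mem_filter.2 ⟨mem_product.2 ⟨mem_univ _, hv⟩, hopn v x h⟩
    cases v with
    | nil => have := (hW _ hv).2.1; simp at this; omega
    | cons j v => exact (hne j x h.1).1.2.1 ⟨v, hB'⟩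
  · have c1 := card_heads B
    have c2 : (univ.filter (fun q : X × (Γ × C) => del (t0 q.2 q.1) q.2)).card ≤
        (univ.filter (fun q : X × (Γ × C) => ∃ v, (q.1, q.2 :: v) ∈ B)).card := by
      refine card_le_card_of_injOn (fun q => (t0 q.2 q.1, q.2)) ?_ ?_
      · intro q hq
        exact mem_coe.2 (mem_filter.2 ⟨mem_univ _, (mem_filter.1 (mem_coe.1 hq)).2⟩)
      · rintro ⟨x, j⟩ _ ⟨x', j'⟩ _ h
        have e2 : j = j' := congrArg Prod.snd h
        subst e2
        have e1 : t0 j x = t0 j x' := congrArg Prod.fst h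
        have : x = x' := by rw [← h1 j x, e1, h1]
        rw [this]
    have c3 : (univ.filter (fun q : X × (Γ × C) => opn t0 c q.2 q.1)) ⊆
        (univ.filter (fun q : X × (Γ × C) => t q.2 q.1 ≠ q.1)) ∪
        ((univ.filter (fun q : X × (Γ × C) => ∃ v, (q.1, q.2 :: v) ∈ B)) ∪
          (univ.filter (fun q : X × (Γ × C) => del (t0 q.2 q.1) q.2))) := by
      intro q hq
      simp only [mem_union, mem_filter, mem_univ, true_and] at hq ⊢
      by_cases d1 : del q.1 q.2
      · exact Or.inr (Or.inl d1)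
      · by_cases d2 : del (t0 q.2 q.1) q.2
        · exact Or.inr (Or.inr d2)
        · left
          have e : t q.2 q.1 = t0 q.2 q.1 := if_pos ⟨hq, d1, d2⟩
          rw [e]
          exact hI.move hl _ _
    have c4 := (card_le_card c3).trans ((card_union_le _ _).trans
      (Nat.add_le_add_left (card_union_le _ _) _))
    have c5 := Nat.mul_le_mul_left (Fintype.card C) (c4.trans
      (Nat.add_le_add_left (Nat.add_le_add c1 (c2.trans c1)) _))
    change Fintype.card X * Fintype.card Γ ≤ Fintype.card C *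
      ((univ.filter (fun q : X × (Γ × C) => t q.2 q.1 ≠ q.1)).card + 2 * Fintype.card X)
    nlinarith

theorem words_le {Γ C S : Type} [Fintype Γ] [Fintype C] {s : Γ × C → S → S} (G : Gr s)
    (hG : G.Sparse) (l : ℕ) : ∀ x, ∃ W : Finset (List (Γ × C)), W.card ≤ Fintype.card Γ ^ l ∧
      ∀ v, v.length = l → Opn G.t v x → v ∈ W := by
  classical
  induction l with
  | zero =>
    intro x
    exact ⟨{[]}, by simp, fun v hv _ => by simpa using hv⟩
  | succ l ih =>
    choose W hW1 hW2 using ih
    intro x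
    refine ⟨(univ.filter (fun j => G.t j x ≠ x)).biUnion
      (fun j => (W (G.t j x)).image (j :: ·)), ?_, ?_⟩
    · refine (card_biUnion_le_card_mul _ _ (Fintype.card Γ ^ l)
        (fun j _ => card_image_le.trans (hW1 _))).trans ?_
      rw [pow_succ']
      refine Nat.mul_le_mul_right _ ?_
      rw [← card_univ]
      refine card_le_card_of_injOn Prod.fst (fun _ _ => mem_coe.2 (mem_univ _)) ?_
      intro j hj j' hj' e
      exact hG x j j' (mem_filter.1 (mem_coe.1 hj)).2 (mem_filter.1 (mem_coe.1 hj')).2 e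
    · intro v hv h
      cases v with
      | nil => simp at hv
      | cons j v =>
        exact mem_biUnion.2 ⟨j, mem_filter.2 ⟨mem_univ _, h.1⟩,
          mem_image.2 ⟨v, hW2 _ v (by simpa using hv) h.2, rfl⟩⟩

theorem chain_groups {Γ C S : Type} {s : Γ × C → S → S} (G : Gr s) (hG : G.Sparse)
    (v : List (Γ × C)) (x : G.V) (hv : Red v) (h : Opn G.t v x) :
    v.IsChain (fun a b => a.1 ≠ b.1) := by
  induction v generalizing x with
  | nil => exact List.isChain_nil
  | cons j v ih =>
    refine List.isChain_cons.2 ⟨fun j' hj' e => ?_, ih _ (red_cons.1 hv).2 h.2⟩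
    cases v with
    | nil => simp at hj'
    | cons a v =>
      have ha : a = j' := by simpa using hj'
      subst ha
      have := hG (G.t j x) j a (by rw [G.inv]; exact h.1.symm) h.2.1 e
      exact (red_cons.1 hv).1 (by rw [this]; rfl)

theorem exists_seq {S : Type} [Fintype S] (D : ℕ) (hD : 1 ≤ D)
    (s : Fin (2 * D * D) × Fin (2 * D) → S → S) (hs : ∀ j x, s j (s j x) = x) :
    ∃ G : ℕ → Gr s, (∀ n, D * Fintype.card (G n).V ≤ (G n).E.card + 2 * Fintype.card (G n).V) ∧
      ∀ m n, m < n → (G m).Apart (G n) := by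
  classical
  have : Nonempty (Fin (2 * D)) := ⟨⟨0, by omega⟩⟩
  obtain ⟨G, h1, h2⟩ := exists_seq_of_forall_finset_exists
    (fun G : Gr s => G.Sparse ∧ D * Fintype.card G.V ≤ G.E.card + 2 * Fintype.card G.V)
    (fun G G' => G.Apart G') (fun F hF => by
      obtain ⟨K, hK⟩ : ∃ K, K = ∑ G ∈ F, Fintype.card G.V := ⟨_, rfl⟩
      have hw : ∀ G : Gr s, ∀ x : G.V, ∃ W : Finset (List (Fin (2 * D * D) × Fin (2 * D))),
          G ∈ F → W.card ≤ (2 * D * D) ^ (K + 1) ∧
            ∀ v, v.length = K + 1 → Opn G.t v x → v ∈ W := by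
        intro G x
        by_cases hG : G ∈ F
        · obtain ⟨W, a1, a2⟩ := words_le G (hF G hG).1 (K + 1) x
          exact ⟨W, fun _ => ⟨by simpa using a1, a2⟩⟩
        · exact ⟨∅, fun h => absurd h hG⟩
      choose W hW using hw
      obtain ⟨G', a1, a2, a3⟩ := exists_rand s hs (l := K + 1) (by omega)
        ((F.biUnion (fun G => univ.biUnion (W G))).filter
          (fun v => Red v ∧ v.length = K + 1 ∧ v.IsChain (fun a b => a.1 ≠ b.1)))
        (fun v hv => (mem_filter.1 hv).2) (by
          refine (card_filter_le _ _).trans (card_biUnion_le.trans ?_)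
          have hle : ∀ G ∈ F, (univ.biUnion (W G)).card ≤
              Fintype.card G.V * (2 * D * D) ^ (K + 1) := fun G hG => by
            rw [← card_univ]
            exact card_biUnion_le_card_mul _ _ _ (fun x _ => (hW G x hG).1)
          refine (sum_le_sum hle).trans ?_
          rw [← sum_mul, ← hK, Fintype.card_fin, pow_mul]
          have e : (2 * D) ^ 2 = 2 * (2 * D * D) := by ring
          rw [e, mul_pow 2]
          refine Nat.mul_le_mul_right _ ?_
          have := Nat.lt_two_pow_self (n := K + 1)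
          omega)
      refine ⟨G', ⟨a1, ?_⟩, fun G hG => ⟨K + 1, fun v x y b1 b2 b3 b4 => a2 v ?_ y b4⟩⟩
      · rw [Fintype.card_fin, Fintype.card_fin] at a3
        apply Nat.le_of_mul_le_mul_left (c := 2 * D) _ (by omega)
        refine le_trans (le_of_eq ?_) a3
        ring
      · exact mem_filter.2 ⟨mem_biUnion.2 ⟨G, hG, mem_biUnion.2 ⟨x, mem_univ _,
          (hW G x hG).2 v b2 b3⟩⟩, b1, b2, chain_groups G (hF G hG).1 v x b1 b3⟩)
  exact ⟨G, fun n => (h1 n).2, h2⟩

end Crest.Agent.H0154
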