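import Crest.Agent.H0154.Est
import Crest.Agent.H0154.Rand

/-! The combinatorial core: no Lipschitz finitely supported approximation of the identity. -/

set_option autoImplicit false

namespace Crest.Agent.H0154

open Finset

variable {ι S : Type} {s : ι → S → S}

/-- disjoint union of a sequence of graphs -/
abbrev UV (G : ℕ → Gr s) : Type := Σ n, (G n).V

/-- the moves on the union -/
def ut (G : ℕ → Gr s) (j : ι) (u : UV G) : UV G := ⟨u.1, (G u.1).t j u.2⟩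

theorem ut_ne (G : ℕ → Gr s) (j : ι) (n : ℕ) (x : (G n).V) :
    ut G j ⟨n, x⟩ ≠ ⟨n, x⟩ ↔ (G n).t j x ≠ x := by
  simp [ut]

/-- the union as a context -/
def uctx (G : ℕ → Gr s) (R : ℕ) (hR : 1 ≤ R) (hs : ∀ j x, s j (s j x) = x) (hI : Inj s R) :
    Ctx ι S (UV G) where
  s := s
  t := ut G
  π := fun u => (G u.1).π u.2
  R := R
  hR := hR
  hs := hs
  hI := hI
  inv := fun j u => by simp [ut, (G u.1).inv]
  compat := fun j u h => (G u.1).compat j u.2 ((ut_ne G j u.1 u.2).1 h)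

theorem act_ut_fst (G : ℕ → Gr s) (v : List ι) (u : UV G) : (act (ut G) v u).1 = u.1 := by
  induction v generalizing u with
  | nil => rfl
  | cons j v ih => rw [act_cons, ih]; rfl

theorem opn_ut (G : ℕ → Gr s) (v : List ι) (n : ℕ) (x : (G n).V) :
    Opn (ut G) v ⟨n, x⟩ ↔ Opn (G n).t v x := by
  induction v generalizing x with
  | nil => simp
  | cons j v ih => rw [opn_cons, opn_cons, ut_ne, ← ih]; rfl

theorem long_word {A B : Type} (t : ι → A → A) (t' : ι → B → B) (W : Finset (A × B))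
    (hW : ∀ z ∈ W, ∃ i i', i ≠ i' ∧ (t i z.1 ≠ z.1 ∧ t' i z.2 ≠ z.2) ∧ (t i z.1, t' i z.2) ∈ W ∧
      (t i' z.1 ≠ z.1 ∧ t' i' z.2 ≠ z.2) ∧ (t i' z.1, t' i' z.2) ∈ W) (l : ℕ) :
    ∀ z ∈ W, ∀ j : Option ι, ∃ v : List ι, Red v ∧ v.length = l ∧ (v.head? = j → j = none) ∧
      Opn t v z.1 ∧ Opn t' v z.2 := by
  induction l with
  | zero => intro z _ j; exact ⟨[], red_nil, rfl, fun h => h.symm, trivial, trivial⟩
  | succ l ih =>
    intro z hz j
    obtain ⟨i, i', hne, a1, a2, a3, a4⟩ := hW z hz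
    obtain ⟨k, hk, b1, b2⟩ : ∃ k, some k ≠ j ∧ (t k z.1 ≠ z.1 ∧ t' k z.2 ≠ z.2) ∧
        (t k z.1, t' k z.2) ∈ W := by
      by_cases h : some i = j
      · exact ⟨i', fun h' => hne (Option.some.inj (h.trans h'.symm)), a3, a4⟩
      · exact ⟨i, h, a1, a2⟩
    obtain ⟨v, c1, c2, c3, c4, c5⟩ := ih _ b2 (some k)
    exact ⟨k :: v, red_cons.2 ⟨fun h => by simpa using c3 h, c1⟩, by simp [c2],
      fun h => absurd h hk, ⟨b1.1, c4⟩, ⟨b1.2, c5⟩⟩

theorem sum_le_sum_of_injOn {A B : Type} [DecidableEq B] {s : Finset A} {t : Finset B}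
    {f : A → ℝ} {g : B → ℝ} (φ : A → B) (h1 : Set.InjOn φ s) (h2 : s.image φ ⊆ t)
    (h3 : ∀ a ∈ s, f a ≤ g (φ a)) (h4 : ∀ b ∈ t, b ∉ s.image φ → 0 ≤ g b) :
    ∑ a ∈ s, f a ≤ ∑ b ∈ t, g b :=
  (sum_le_sum h3).trans ((sum_image h1).symm.trans_le (sum_le_sum_of_subset_of_nonneg h2 h4))

theorem core [Fintype ι] [Nonempty S] (G : ℕ → Gr s) (R : ℕ) (hR : 1 ≤ R)
    (hs : ∀ j x, s j (s j x) = x) (hI : Inj s R) (D : ℕ)
    (hD : ∀ n, D * Fintype.card (G n).V ≤ (G n).E.card + 2 * Fintype.card (G n).V)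
    (hA : ∀ m n, m < n → (G m).Apart (G n))
    (T : UV G → (UV G → ℝ) →ₗ[ℝ] ℝ) (lam r L : ℝ) (h : (uctx G R hR hs hI).Hyp T lam r L)
    (hDL : 10 + 12 * L < D) (n : ℕ)
    (H3 : ∀ p f, (∀ u : UV G, u.1 < n → f u = 0) → T p f = 0) : False := by
  classical
  obtain ⟨c, hc⟩ : ∃ c, c = uctx G R hR hs hI := ⟨_, rfl⟩
  have ct : c.t = ut G := by rw [hc]; rfl
  have cs : c.s = s := by rw [hc]; rfl
  rw [← hc] at h
  obtain ⟨Y, hY⟩ : ∃ Y : Finset (UV G), ∀ u, u ∈ Y ↔ u.1 < n :=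
    ⟨(range n).sigma (fun _ => univ), fun u => by simp⟩
  let P : (G n).V → UV G := fun p => ⟨n, p⟩
  have hP : ∀ j p, c.t j (P p) = P ((G n).t j p) := fun j p => by rw [ct]; rfl
  have hPne : ∀ j p, (G n).t j p ≠ p → c.t j (P p) ≠ P p := fun j p hp => by
    rw [ct]; exact (ut_ne G j n p).2 hp
  let I : (G n).V → ι → Finset (UV G) := fun p i =>
    Y.filter (fun x => c.π x = c.π (P p) ∧ c.t i x ≠ x)
  let α : (G n).V × UV G → ℝ := fun z => |T (P z.1) (c.cx z.2)|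
  -- upper bound, edge by edge
  have up : ∀ p i, T (P p) (c.fb (c.π (P p)) (c.has i)) ≤
      ∑ x ∈ I p i, min (α (p, x)) (α ((G n).t i p, c.t i x)) + 3 / 16 := by
    intro p i
    have e1 : T (P p) (c.fb (c.π (P p)) (c.has i)) = ∑ x ∈ I p i, T (P p) (c.cx x) := by
      have e2 := c.sum_cx (c.π (P p)) (I p i) (fun x hx => (mem_filter.1 hx).2.1) (fun _ => 1)
      simp only [one_smul] at e2
      rw [← map_sum, e2, ← sub_eq_zero, ← map_sub]
      refine H3 _ _ fun u hu => ?_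
      rw [Pi.sub_apply, sub_eq_zero]
      refine c.fb_congr _ u fun v _ hv => ?_
      have hy : act c.t v u ∈ Y := by rw [hY, ct, act_ut_fst]; exact hu
      unfold Ctx.has
      simp only [I, mem_filter, hy, hv, true_and]
      congr
    have e3 := h.est2 (c.π (P p)) i (I p i) (fun x hx => (mem_filter.1 hx).2.1)
      (fun x hx => (mem_filter.1 hx).2.2) (P p)
    rw [e1]
    refine le_trans ?_ (add_le_add le_rfl e3)
    rw [← sum_add_distrib]
    refine sum_le_sum fun x _ => ?_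
    simp only [α, ← hP]
    generalize T (P p) (c.cx x) = a
    generalize T (c.t i (P p)) (c.cx (c.t i x)) = b
    rcases le_total |a| |b| with h1 | h1
    · rw [min_eq_left h1]; linarith [le_abs_self a, abs_nonneg (a - b)]
    · rw [min_eq_right h1]; linarith [le_abs_self b, le_abs_self (a - b)]
  -- the fibre product is a forest
  let W : Finset ((G n).V × UV G) := (univ ×ˢ Y).filter (fun z => c.π z.2 = c.π (P z.1))
  have hf := forest (fun i (z : (G n).V × UV G) => ((G n).t i z.1, c.t i z.2))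
    (fun i z => (G n).t i z.1 ≠ z.1 ∧ c.t i z.2 ≠ z.2)
    (fun i z => by simp [(G n).inv, c.inv])
    (fun i z hz => by
      simp only [(G n).inv, c.inv]; exact ⟨hz.1.symm, hz.2.symm⟩) α (fun _ => abs_nonneg _) W
    (fun W' hW' hne => by
      by_contra hcon
      push Not at hcon
      obtain ⟨⟨p, m, x⟩, hz⟩ := hne
      have hm : m < n := (hY _).1 (mem_product.1 (mem_filter.1 (hW' hz)).1).2
      obtain ⟨l, hl⟩ := hA m n hm
      obtain ⟨v, a1, a2, _, a4, a5⟩ := long_word (G n).t c.t W' (fun z hz => by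
        obtain ⟨i, i', b1, b2, b3, b4, b5⟩ := hcon z hz
        exact ⟨i, i', b5, b1, b2, b3, b4⟩) l _ hz none
      rw [ct] at a5
      exact hl v x p a1 a2 ((opn_ut G v m x).1 a5) a4)
  have hW : ∑ z ∈ W, α z ≤ Fintype.card (G n).V * (1 + L) := by
    rw [sum_filter, sum_product, ← card_univ, ← nsmul_eq_mul]
    refine sum_le_card_nsmul _ _ _ fun p _ => ?_
    rw [← sum_filter]
    exact h.est1 (c.π (P p)) _ (fun x hx => (mem_filter.1 hx).2) (P p)
  have hmin : ∑ q ∈ (G n).E, ∑ x ∈ I q.1 q.2, min (α (q.1, x)) (α ((G n).t q.2 q.1, c.t q.2 x)) ≤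
      2 * ∑ z ∈ W, α z := by
    refine le_trans ?_ hf
    rw [sum_sigma']
    refine sum_le_sum_of_injOn (fun a => ((a.1.1, a.2), a.1.2)) ?_ ?_ (fun _ _ => le_rfl)
      (fun q _ _ => le_min (abs_nonneg _) (abs_nonneg _))
    · rintro ⟨⟨p, i⟩, x⟩ _ ⟨⟨p', i'⟩, x'⟩ _ e
      simp only [Prod.mk.injEq] at e
      obtain ⟨⟨rfl, rfl⟩, rfl⟩ := e
      rfl
    · intro q hq
      obtain ⟨⟨⟨p, i⟩, x⟩, ha, rfl⟩ := mem_image.1 hq
      obtain ⟨a1, a2⟩ := mem_sigma.1 ha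
      rw [Gr.mem_E] at a1
      obtain ⟨a3, a4, a5⟩ := mem_filter.1 a2
      refine mem_filter.2 ⟨mem_product.2 ⟨mem_filter.2 ⟨mem_product.2 ⟨mem_univ _, a3⟩, a4⟩,
        mem_univ _⟩, ⟨a1, a5⟩, mem_filter.2 ⟨mem_product.2 ⟨mem_univ _, ?_⟩, ?_⟩⟩
      · rw [hY] at a3 ⊢
        simp only [ct]
        exact a3
      · simp only at a1 a4 a5 ⊢
        rw [← hP, c.compat _ _ a5, c.compat _ _ (hPne _ _ a1), a4]
  -- the two summable error terms
  have full : ∀ F : (G n).V × ι → ℝ, (∀ q, 0 ≤ F q) → (∀ p, ∑ i, F (p, i) ≤ 1 + 2 * L) →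
      ∑ q ∈ (G n).E, F q ≤ Fintype.card (G n).V * (1 + 2 * L) := by
    intro F h0 h1
    refine (sum_le_sum_of_subset_of_nonneg (subset_univ _) fun q _ _ => h0 q).trans ?_
    rw [Fintype.sum_prod_type, ← card_univ, ← nsmul_eq_mul]
    exact sum_le_card_nsmul _ _ _ fun p _ => h1 p
  have hB := full (fun q => |T (P q.1) (c.Bf (c.π (P q.1)) q.2)|) (fun _ => abs_nonneg _)
    (fun p => h.est_disj (c.π (P p)) _ (c.Bf_bound _) (fun _ _ => c.Bf_supp) univ (P p))
  have hE := full (fun q => |T (P q.1) (c.Ef (c.s q.2 (c.π (P q.1))) q.2)|)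
    (fun _ => abs_nonneg _)
    (fun p => h.est_disj (c.π (P p)) (fun i => c.Ef (c.s i (c.π (P p))) i)
      (fun _ => c.Ef_bound _ _) (fun _ _ => c.Ef_supp) univ (P p))
  have hE' : ∑ q ∈ (G n).E, |T (c.t q.2 (P q.1)) (c.Ef (c.π (P q.1)) q.2)| =
      ∑ q ∈ (G n).E, |T (P q.1) (c.Ef (c.s q.2 (c.π (P q.1))) q.2)| := by
    refine sum_nbij' (fun q => ((G n).t q.2 q.1, q.2)) (fun q => ((G n).t q.2 q.1, q.2))
      ?_ ?_ ?_ ?_ ?_
    · intro q hq
      rw [Gr.mem_E] at hq ⊢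
      simp only [(G n).inv]; exact hq.symm
    · intro q hq
      rw [Gr.mem_E] at hq ⊢
      simp only [(G n).inv]; exact hq.symm
    · intro q _; simp [(G n).inv]
    · intro q _; simp [(G n).inv]
    · intro q hq
      rw [Gr.mem_E] at hq
      simp only
      rw [← hP, c.compat _ _ (hPne _ _ hq), c.hs]
  have tot := sum_le_sum (s := (G n).E) fun q _ => (h.est3 q.2 (P q.1)).trans (up q.1 q.2)
  rw [sum_sub_distrib, sum_sub_distrib, sum_add_distrib, sum_const, sum_const, nsmul_eq_mul,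
    nsmul_eq_mul, hE'] at tot
  have hpos : (0 : ℝ) < Fintype.card (G n).V := by
    obtain ⟨x, _⟩ := (G n).surj (Classical.arbitrary S)
    have : Nonempty (G n).V := ⟨x⟩
    exact_mod_cast Fintype.card_pos
  have hD' : (D * Fintype.card (G n).V : ℝ) ≤ (G n).E.card + 2 * Fintype.card (G n).V := by
    exact_mod_cast hD n
  have hL := h.hL
  have hE0 : (0 : ℝ) ≤ (G n).E.card := by positivity
  nlinarith [mul_lt_mul_of_pos_right hDL hpos, mul_nonneg hL hpos.le]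

end Crest.Agent.H0154
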