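import Crest.Agent.H0154.Tent

/-! Estimates for a Lipschitz family of functionals. -/

set_option autoImplicit false

namespace Crest.Agent.H0154

open Finset

theorem exists_sign {κ : Type} (I : Finset κ) (a : κ → ℝ) :
    ∃ ε : κ → ℝ, (∀ k, |ε k| ≤ 1) ∧ ∑ k ∈ I, |a k| = ∑ k ∈ I, ε k * a k := by
  refine ⟨fun k => if 0 ≤ a k then 1 else -1, fun k => ?_, sum_congr rfl fun k _ => ?_⟩
  · dsimp only; split_ifs <;> simp
  · dsimp only
    split_ifs with h
    · rw [abs_of_nonneg h, one_mul]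
    · rw [abs_of_neg (not_le.1 h)]; ring

namespace Ctx

variable {ι S V : Type} (c : Ctx ι S V)

/-- admissible functions with Lipschitz constant `l` -/
structure Adm (r : ℝ) (f : V → ℝ) (l : ℝ) : Prop where
  edge : ∀ j u, |f u - f (c.t j u)| ≤ l
  fib : ∀ u u', c.π u = c.π u' → |f u - f u'| ≤ l * r
  bd : ∀ u, |f u| ≤ l * c.R

theorem adm_of_bound {r b l : ℝ} {f : V → ℝ} (hb : ∀ u, |f u| ≤ b)
    (he : ∀ j u, |f u - f (c.t j u)| ≤ l) (h1 : 2 * b ≤ l * r) (h2 : b ≤ l * c.R) :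
    c.Adm r f l :=
  ⟨he, fun u u' _ => (abs_sub _ _).trans (by linarith [hb u, hb u']), fun u => (hb u).trans h2⟩

/-- the hypotheses on the family of functionals -/
structure Hyp (T : V → (V → ℝ) →ₗ[ℝ] ℝ) (lam r L : ℝ) : Prop where
  lam1 : 1 ≤ lam
  hr : r = 16 * lam
  hL : 0 ≤ L
  hRr : r ≤ c.R
  hRL : 16 * (1 + 2 * L) ≤ c.R
  H1 : ∀ j p f l, 0 < l → c.Adm r f l → |T p f - T (c.t j p) f| ≤ lam * l
  H2 : ∀ p f l, 0 < l → c.Adm r f l → |T p f - f p| ≤ L * l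

open Classical in
/-- the tent around `x` -/
noncomputable def cx (x : V) : V → ℝ := c.fb (c.π x) (fun y => if y = x then 1 else 0)

open Classical in
theorem sum_cx (σ : S) (I : Finset V) (hI : ∀ x ∈ I, c.π x = σ) (ε : V → ℝ) :
    ∑ x ∈ I, ε x • c.cx x = c.fb σ (fun y => if y ∈ I then ε y else 0) := by
  rw [sum_congr rfl (g := fun x => ε x • c.fb σ (fun y => if y = x then 1 else 0))
    (fun x hx => by rw [cx, hI x hx]), c.fb_sum]
  congr 1
  funext y
  simp [Finset.sum_apply]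

open Classical in
theorem sum_cx_shift (σ : S) (i : ι) (I : Finset V) (hI : ∀ x ∈ I, c.π x = σ)
    (hI' : ∀ x ∈ I, c.t i x ≠ x) (ε : V → ℝ) :
    ∑ x ∈ I, ε x • c.cx (c.t i x) =
      c.fb (c.s i σ) (fun y => if c.t i y ∈ I then ε (c.t i y) else 0) := by
  rw [sum_congr rfl (g := fun x => ε x • c.fb (c.s i σ) (fun y => if c.t i y = x then 1 else 0))
    (fun x hx => by
      rw [cx, c.compat i x (hI' x hx), hI x hx]
      congr 2
      funext y
      have : y = c.t i x ↔ c.t i y = x :=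
        ⟨fun h => by rw [h, c.inv], fun h => by rw [← h, c.inv]⟩
      simp only [this]), c.fb_sum]
  congr 1
  funext y
  simp [Finset.sum_apply]

variable {c} {T : V → (V → ℝ) →ₗ[ℝ] ℝ} {lam r L : ℝ}

theorem Hyp.r16 (h : c.Hyp T lam r L) : 16 ≤ r := by rw [h.hr]; linarith [h.lam1]

theorem Hyp.adm1 (h : c.Hyp T lam r L) {f : V → ℝ} (hb : ∀ u, |f u| ≤ 1)
    (he : ∀ j u, |f u - f (c.t j u)| ≤ 1 / c.R) : c.Adm r f (2 / r) := by
  have h16 := h.r16
  have hR := c.R_pos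
  have h1 : 1 / (c.R : ℝ) ≤ 2 / r := by
    rw [div_le_div_iff₀ hR (by linarith)]; linarith [h.hRr]
  refine c.adm_of_bound hb (fun j u => (he j u).trans h1) (le_of_eq ?_) ?_
  · field_simp
  · rw [div_le_iff₀ hR] at h1; exact h1

theorem Hyp.lam_l (h : c.Hyp T lam r L) : lam * (2 / r) = 1 / 8 := by
  have := h.lam1
  rw [h.hr]; field_simp; norm_num

theorem Hyp.est_disj (h : c.Hyp T lam r L) (σ : S) (g : ι → V → ℝ) (hb : ∀ i u, |g i u| ≤ 1)
    (hs : ∀ i u, g i u ≠ 0 → ∃ v, c.Bk σ u v ∧ v.getLast? = some i) (I : Finset ι) (p : V) :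
    ∑ i ∈ I, |T p (g i)| ≤ 1 + 2 * L := by
  classical
  obtain ⟨ε, h1, h2⟩ := exists_sign I (fun i => T p (g i))
  have e : ∑ i ∈ I, ε i * T p (g i) = T p (∑ i ∈ I, ε i • g i) := by
    rw [map_sum]; simp
  have hb' : ∀ u, |(∑ i ∈ I, ε i • g i) u| ≤ 1 := by
    intro u
    rw [Finset.sum_apply]
    by_cases hz : ∃ i ∈ I, g i u ≠ 0
    · obtain ⟨i, hi, hne⟩ := hz
      rw [sum_eq_single_of_mem i hi]
      · rw [Pi.smul_apply, smul_eq_mul, abs_mul]
        exact mul_le_one₀ (h1 i) (abs_nonneg _) (hb i u)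
      · intro i' _ hne'
        by_cases h0 : g i' u = 0
        · simp [h0]
        · obtain ⟨v, a1, a2⟩ := hs i u hne
          obtain ⟨v', b1, b2⟩ := hs i' u h0
          rw [← a1.unique b1, a2] at b2
          exact absurd (Option.some.inj b2).symm hne'
    · push Not at hz
      rw [sum_eq_zero fun i hi => by simp [hz i hi]]
      simp
  have h16 := h.r16
  have hR : (1 : ℝ) ≤ c.R := by exact_mod_cast c.hR
  have := h.H2 p _ 2 (by norm_num) (c.adm_of_bound hb'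
    (fun j u => (abs_sub _ _).trans (by linarith [hb' u, hb' (c.t j u)])) (by linarith)
    (by linarith))
  rw [h2, e]
  have a1 := (abs_le.1 this).2
  have a2 := (abs_le.1 (hb' p)).2
  linarith

theorem Hyp.est1 (h : c.Hyp T lam r L) (σ : S) (I : Finset V) (hI : ∀ x ∈ I, c.π x = σ) (p : V) :
    ∑ x ∈ I, |T p (c.cx x)| ≤ 1 + L := by
  classical
  obtain ⟨ε, h1, h2⟩ := exists_sign I (fun x => T p (c.cx x))
  have e : ∑ x ∈ I, ε x * T p (c.cx x) = T p (∑ x ∈ I, ε x • c.cx x) := by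
    rw [map_sum]; simp
  rw [h2, e, c.sum_cx σ I hI]
  have hβ : ∀ y, |if y ∈ I then ε y else 0| ≤ 1 := by
    intro y; split_ifs
    · exact h1 y
    · simp
  have h16 := h.r16
  have := h.H2 p _ _ (by positivity) (h.adm1 (c.fb_bound σ hβ) (c.fb_lip σ hβ))
  have a1 := (abs_le.1 this).2
  have a2 := (abs_le.1 (c.fb_bound σ hβ p)).2
  have a3 : L * (2 / r) ≤ L :=
    mul_le_of_le_one_right h.hL (by rw [div_le_one (by linarith)]; linarith)
  linarith

theorem Hyp.est2 (h : c.Hyp T lam r L) (σ : S) (i : ι) (I : Finset V) (hI : ∀ x ∈ I, c.π x = σ)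
    (hI' : ∀ x ∈ I, c.t i x ≠ x) (p : V) :
    ∑ x ∈ I, |T p (c.cx x) - T (c.t i p) (c.cx (c.t i x))| ≤ 3 / 16 := by
  classical
  obtain ⟨ε, h1, h2⟩ := exists_sign I (fun x => T p (c.cx x) - T (c.t i p) (c.cx (c.t i x)))
  have e : ∑ x ∈ I, ε x * (T p (c.cx x) - T (c.t i p) (c.cx (c.t i x))) =
      T p (∑ x ∈ I, ε x • c.cx x) - T (c.t i p) (∑ x ∈ I, ε x • c.cx (c.t i x)) := by
    rw [map_sum, map_sum, ← sum_sub_distrib]
    exact sum_congr rfl fun x _ => by simp; ring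
  rw [h2, e, c.sum_cx σ I hI, c.sum_cx_shift σ i I hI hI']
  obtain ⟨β, hβe⟩ : ∃ β : V → ℝ, β = fun y => if y ∈ I then ε y else 0 := ⟨_, rfl⟩
  have hβ : ∀ y, |β y| ≤ 1 := by
    intro y; rw [hβe]; dsimp only; split_ifs
    · exact h1 y
    · simp
  have hs : ∀ y, β y ≠ 0 → c.t i y ≠ y := by
    intro y hy
    refine hI' y ?_
    by_contra h'
    exact hy (by rw [hβe]; exact if_neg h')
  have e2 : (fun y => if c.t i y ∈ I then ε (c.t i y) else 0) = fun y => β (c.t i y) := by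
    rw [hβe]
  rw [← hβe, e2]
  have h16 := h.r16
  have hR := c.R_pos
  have hR1 : (1 : ℝ) ≤ c.R := by exact_mod_cast c.hR
  have a1 := h.H1 i p _ _ (by positivity) (h.adm1 (c.fb_bound σ hβ) (c.fb_lip σ hβ))
  rw [h.lam_l] at a1
  have hd : ∀ u, |(c.fb σ β - c.fb (c.s i σ) (fun y => β (c.t i y))) u| ≤ 1 / c.R :=
    fun u => c.fb_shift σ i hβ hs u
  have a2 := h.H2 (c.t i p) (c.fb σ β - c.fb (c.s i σ) (fun y => β (c.t i y))) (2 / c.R)
    (by positivity) (c.adm_of_bound hd (fun j u => by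
      have b1 := c.fb_lip σ hβ j u
      have b2 := c.fb_lip (c.s i σ) (β := fun y => β (c.t i y)) (fun _ => hβ _) j u
      simp only [Pi.sub_apply]
      rw [abs_le] at b1 b2 ⊢
      have : (2 : ℝ) / c.R = 1 / c.R + 1 / c.R := by ring
      constructor <;> linarith [b1.1, b1.2, b2.1, b2.2])
      (by
        have : (2 : ℝ) * (1 / c.R) = 2 / c.R * 1 := by ring
        rw [this]
        exact mul_le_mul_of_nonneg_left (by linarith) (by positivity))
      (by
        rw [div_mul_cancel₀ _ hR.ne', div_le_iff₀ hR]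
        linarith))
  rw [map_sub] at a2
  have a3 := hd (c.t i p)
  have a4 : 1 / c.R + L * (2 / c.R) ≤ 1 / 16 := by
    have : 1 / c.R + L * (2 / c.R) = (1 + 2 * L) / c.R := by ring
    rw [this, div_le_iff₀ hR]
    linarith [h.hRL]
  rw [abs_le] at a1 a2 a3
  linarith [a1.2, a2.2, a3.2]

theorem Hyp.est3 (h : c.Hyp T lam r L) (i : ι) (p : V) :
    1 - 1 / 32 - 1 / 8 - |T p (c.Bf (c.π p) i)| - |T (c.t i p) (c.Ef (c.π p) i)| ≤
      T p (c.fb (c.π p) (c.has i)) := by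
  have h16 := h.r16
  have hR := c.R_pos
  have a1 := h.H2 p (c.Cf (c.π p)) (1 / c.R) (by positivity)
    ⟨c.Cf_lip _, fun u u' e => by
      rw [Cf, c.fn_congr_fibre _ c.tent e, sub_self, abs_zero]; positivity,
      fun u => by rw [div_mul_cancel₀ _ hR.ne']; exact c.Cf_bound _ u⟩
  rw [c.Cf_self, c.Cf_split _ i, map_add, map_add] at a1
  have a2 := h.H1 i p _ _ (by positivity) (h.adm1 (c.Ef_bound (c.π p) i) (c.Ef_lip _ i))
  rw [h.lam_l] at a2
  have a4 : L * (1 / c.R) ≤ 1 / 32 := by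
    rw [mul_one_div, div_le_iff₀ hR]
    linarith [h.hRL]
  rw [abs_le] at a1 a2
  linarith [a1.1, a2.2, le_abs_self (T p (c.Bf (c.π p) i)),
    le_abs_self (T (c.t i p) (c.Ef (c.π p) i))]

end Ctx

theorem forest {Z ι : Type} [Fintype ι] [DecidableEq Z] (mv : ι → Z → Z) (ok : ι → Z → Prop)
    [∀ i z, Decidable (ok i z)] (h1 : ∀ i z, mv i (mv i z) = z)
    (h2 : ∀ i z, ok i z → ok i (mv i z)) (α : Z → ℝ) (hα : ∀ z, 0 ≤ α z) (W : Finset Z)
    (hW : ∀ W' ⊆ W, W'.Nonempty → ∃ z ∈ W', ∀ i i', ok i z → mv i z ∈ W' → ok i' z →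
      mv i' z ∈ W' → i = i') :
    ∑ q ∈ (W ×ˢ univ).filter (fun q : Z × ι => ok q.2 q.1 ∧ mv q.2 q.1 ∈ W),
      min (α q.1) (α (mv q.2 q.1)) ≤ 2 * ∑ z ∈ W, α z := by
  classical
  induction W using Finset.strongInduction with
  | H W ih =>
    rcases W.eq_empty_or_nonempty with rfl | hne
    · simp
    obtain ⟨z, hz, hzu⟩ := hW W subset_rfl hne
    have ih' := ih (W.erase z) (erase_ssubset hz)
      (fun W' h => hW W' (h.trans (erase_subset _ _)))
    obtain ⟨P, hP⟩ : ∃ P, P = (W ×ˢ univ).filter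
      (fun q : Z × ι => ok q.2 q.1 ∧ mv q.2 q.1 ∈ W) := ⟨_, rfl⟩
    have hPm : ∀ q, q ∈ P ↔ q.1 ∈ W ∧ ok q.2 q.1 ∧ mv q.2 q.1 ∈ W := by
      intro q; rw [hP]; simp
    rw [← hP, ← sum_filter_add_sum_filter_not P (fun q => q.1 = z),
      ← sum_filter_add_sum_filter_not (P.filter (fun q => ¬ q.1 = z)) (fun q => mv q.2 q.1 = z),
      ← add_sum_erase W α hz]
    have bnd : ∀ A : Finset (Z × ι), A.card ≤ 1 → (∀ q ∈ A, min (α q.1) (α (mv q.2 q.1)) ≤ α z) →
        ∑ q ∈ A, min (α q.1) (α (mv q.2 q.1)) ≤ α z := by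
      intro A a1 a2
      refine (sum_le_card_nsmul A _ _ a2).trans ?_
      rw [nsmul_eq_mul]
      exact mul_le_of_le_one_left (hα z) (by exact_mod_cast a1)
    have b1 := bnd (P.filter (fun q => q.1 = z)) (card_le_one.2 fun q hq q' hq' => by
      obtain ⟨a1, a2⟩ := mem_filter.1 hq
      obtain ⟨a3, a4⟩ := mem_filter.1 hq'
      rw [hPm, a2] at a1
      rw [hPm, a4] at a3
      exact Prod.ext (a2.trans a4.symm) (hzu _ _ a1.2.1 a1.2.2 a3.2.1 a3.2.2))
      (fun q hq => by rw [← (mem_filter.1 hq).2]; exact min_le_left _ _)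
    have b2 := bnd ((P.filter (fun q => ¬ q.1 = z)).filter (fun q => mv q.2 q.1 = z))
      (card_le_one.2 fun q hq q' hq' => by
        obtain ⟨a1, a2⟩ := mem_filter.1 hq
        obtain ⟨a3, a4⟩ := mem_filter.1 hq'
        have a5 := (hPm _).1 (mem_filter.1 a1).1
        have a6 := (hPm _).1 (mem_filter.1 a3).1
        have e1 : mv q.2 z = q.1 := by rw [← a2, h1]
        have e2 : mv q'.2 z = q'.1 := by rw [← a4, h1]
        have e3 : q.2 = q'.2 := hzu _ _ (a2 ▸ h2 _ _ a5.2.1) (e1 ▸ a5.1) (a4 ▸ h2 _ _ a6.2.1)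
          (e2 ▸ a6.1)
        exact Prod.ext (by rw [← e1, ← e2, e3]) e3)
      (fun q hq => by rw [← (mem_filter.1 hq).2]; exact min_le_right _ _)
    have b3 : (P.filter (fun q => ¬ q.1 = z)).filter (fun q => ¬ mv q.2 q.1 = z) =
        (W.erase z ×ˢ univ).filter (fun q : Z × ι => ok q.2 q.1 ∧ mv q.2 q.1 ∈ W.erase z) := by
      ext q
      simp only [mem_filter, hPm, mem_product, mem_erase, mem_univ, and_true]
      tauto
    rw [b3]
    linarith

end Crest.Agent.H0154
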