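import Mathlib
import Crest.Prelude.Def_LipschitzFree

/-! General facts on Lipschitz-free spaces. -/

set_option autoImplicit false

namespace Crest.Agent.H0154

open Crest.AnalysisR UniformSpace

attribute [local instance] PointedMetric.metric

variable (P : PointedMetric)

theorem norm_def (a : P.Mol) : ‖a‖ = P.freeNorm a := rfl

/-- the Dirac molecule -/
noncomputable def dl (x : P.M) : P.Mol := (Finsupp.single x 1 : P.M →₀ ℝ)

theorem pairing_dl (x : P.M) (f : P.M → ℝ) : P.pairing (dl P x) f = f x := by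
  unfold PointedMetric.pairing PointedMetric.coeffs dl
  rw [Finsupp.sum_single_index (by simp), one_mul]

theorem pairing_sub (a b : P.Mol) (f : P.M → ℝ) :
    P.pairing (a - b) f = P.pairing a f - P.pairing b f := by
  rw [sub_eq_add_neg, P.pairing_add, P.pairing_neg, sub_eq_add_neg]

/-- the pairing as a linear functional of the function -/
noncomputable def pairL (a : P.Mol) : (P.M → ℝ) →ₗ[ℝ] ℝ where
  toFun f := P.pairing a f
  map_add' f g := by
    unfold PointedMetric.pairing Finsupp.sum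
    rw [← Finset.sum_add_distrib]
    exact Finset.sum_congr rfl fun x _ => by simp [mul_add]
  map_smul' c f := by
    unfold PointedMetric.pairing Finsupp.sum
    simp only [RingHom.id_apply, smul_eq_mul, Finset.mul_sum, Pi.smul_apply]
    exact Finset.sum_congr rfl fun x _ => by ring

/-- the pairing as a linear functional of the molecule -/
noncomputable def pairR (f : P.M → ℝ) : P.Mol →ₗ[ℝ] ℝ where
  toFun a := P.pairing a f
  map_add' a b := P.pairing_add a b f
  map_smul' c a := P.pairing_smul c a f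

theorem pairing_eq_zero (a : P.Mol) (f : P.M → ℝ) (h : ∀ x ∈ (P.coeffs a).support, f x = 0) :
    P.pairing a f = 0 :=
  Finset.sum_eq_zero fun x hx => by simp [h x hx]

theorem abs_pairing_le_norm (a : P.Mol) (f : P.M → ℝ) (l : ℝ) (hl : 0 < l) (h0 : f P.base = 0)
    (h : ∀ x y, |f x - f y| ≤ l * dist x y) : |P.pairing a f| ≤ l * ‖a‖ := by
  let g : P.Lip1 := ⟨l⁻¹ • f, LipschitzWith.of_dist_le_mul fun x y => by
    rw [Real.dist_eq, Pi.smul_apply, Pi.smul_apply, smul_eq_mul, smul_eq_mul, ← mul_sub, abs_mul,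
      abs_of_pos (inv_pos.2 hl), inv_mul_le_iff₀ hl, NNReal.coe_one, one_mul]
    exact h x y, by simp [h0]⟩
  have h1 : |P.pairing a g.1| ≤ ‖a‖ := le_ciSup (P.freeNorm_bddAbove a) g
  have h2 : P.pairing a g.1 = l⁻¹ * P.pairing a f := (pairL P a).map_smul l⁻¹ f
  rw [h2, abs_mul, abs_of_pos (inv_pos.2 hl), inv_mul_le_iff₀ hl] at h1
  exact h1

theorem norm_le_of (a : P.Mol) (b : ℝ)
    (h : ∀ f : P.M → ℝ, f P.base = 0 → (∀ x y, |f x - f y| ≤ dist x y) → |P.pairing a f| ≤ b) :
    ‖a‖ ≤ b :=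
  ciSup_le fun f => h f.1 f.2.2 fun x y => by simpa [Real.dist_eq] using f.2.1.dist_le_mul x y

theorem norm_dl_sub (x y : P.M) : ‖dl P x - dl P y‖ ≤ dist x y :=
  norm_le_of P _ _ fun f _ h => by rw [pairing_sub, pairing_dl, pairing_dl]; exact h x y

theorem norm_dl (x : P.M) : ‖dl P x‖ ≤ dist x P.base :=
  norm_le_of P _ _ fun f h0 h => by
    have := h x P.base
    rwa [h0, sub_zero, ← pairing_dl P x f] at this

/-- push-forward of molecules -/
noncomputable def push (ρ : P.M → P.M) : P.Mol →ₗ[ℝ] P.Mol := Finsupp.lmapDomain ℝ ℝ ρ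

theorem pairing_push (ρ : P.M → P.M) (a : P.Mol) (f : P.M → ℝ) :
    P.pairing (push P ρ a) f = P.pairing a (fun x => f (ρ x)) :=
  Finsupp.sum_mapDomain_index (fun _ => zero_mul _) (fun _ _ _ => add_mul _ _ _)

theorem norm_push (ρ : P.M → P.M) (l : ℝ) (hl : 0 < l) (h0 : ρ P.base = P.base)
    (h : ∀ x y, dist (ρ x) (ρ y) ≤ l * dist x y) (a : P.Mol) : ‖push P ρ a‖ ≤ l * ‖a‖ :=
  norm_le_of P _ _ fun f f0 hf => by
    rw [pairing_push]
    exact abs_pairing_le_norm P a _ l hl (by rw [h0, f0]) fun x y => (hf _ _).trans (h x y)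

theorem push_congr {ρ ρ' : P.M → P.M} (a : P.Mol) (h : ∀ x ∈ (P.coeffs a).support, ρ x = ρ' x) :
    push P ρ a = push P ρ' a := Finsupp.mapDomain_congr h

theorem push_id (a : P.Mol) : push P id a = a := Finsupp.mapDomain_id

theorem exists_op (ρ : P.M → P.M) (l : ℝ) (hl : 0 < l) (h0 : ρ P.base = P.base)
    (h : ∀ x y, dist (ρ x) (ρ y) ≤ l * dist x y) :
    ∃ T : P.FreeSpace →L[ℝ] P.FreeSpace, (∀ a : P.Mol, T a = (push P ρ a : P.Mol)) ∧
      ∀ v, ‖T v‖ ≤ l * ‖v‖ := by
  refine ⟨((push P ρ).mkContinuous l (norm_push P ρ l hl h0 h)).completion, fun a => by simp,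
    fun v => ?_⟩
  induction v using Completion.induction_on with
  | hp => exact isClosed_le (by fun_prop) (by fun_prop)
  | ih a =>
    rw [ContinuousLinearMap.completion_apply_coe, Completion.norm_coe, Completion.norm_coe]
    exact norm_push P ρ l hl h0 h a

theorem finite_rank (ρ : P.M → P.M) (Z : Finset P.M) (hZ : ∀ x, ρ x ∈ Z)
    (T : P.FreeSpace →L[ℝ] P.FreeSpace) (hT : ∀ a : P.Mol, T a = (push P ρ a : P.Mol)) :
    FiniteDimensional ℝ (LinearMap.range T.toLinearMap) := by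
  classical
  let E : Submodule ℝ P.FreeSpace :=
    Submodule.span ℝ ((fun z => ((dl P z : P.Mol) : P.FreeSpace)) '' Z)
  have : FiniteDimensional ℝ E := FiniteDimensional.span_of_finite ℝ (Z.finite_toSet.image _)
  refine Submodule.finiteDimensional_of_le (S₂ := E) ?_
  rintro _ ⟨v, rfl⟩
  change T v ∈ E
  induction v using Completion.induction_on with
  | hp => exact E.closed_of_finiteDimensional.preimage T.continuous
  | ih a =>
    rw [hT]
    have key : ∀ a : P.M →₀ ℝ, ((push P ρ a : P.Mol) : P.FreeSpace) ∈ E := by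
      intro a
      induction a using Finsupp.induction_linear with
      | zero =>
        have : push P ρ (0 : P.M →₀ ℝ) = 0 := (push P ρ).map_zero
        rw [this, Completion.coe_zero]; exact E.zero_mem
      | add a b ha hb =>
        have : push P ρ (a + b : P.M →₀ ℝ) = push P ρ a + push P ρ b := (push P ρ).map_add a b
        rw [this, Completion.coe_add]; exact E.add_mem ha hb
      | single x r =>
        have : push P ρ (Finsupp.single x r : P.M →₀ ℝ) = r • dl P (ρ x) := by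
          refine (Finsupp.mapDomain_single (f := ρ) (a := x) (b := r)).trans ?_
          exact (Finsupp.smul_single_one (ρ x) r).symm
        rw [this, Completion.coe_smul]
        exact E.smul_mem _ (Submodule.subset_span ⟨ρ x, hZ x, rfl⟩)
    exact key a

theorem exists_net (K : Set P.FreeSpace) (hK : IsCompact K) (η : ℝ) (hη : 0 < η) :
    ∃ Z : Finset P.M, ∀ v ∈ K, ∃ a : P.Mol, (P.coeffs a).support ⊆ Z ∧ ‖v - a‖ ≤ η := by
  classical
  obtain ⟨N, hN⟩ := hK.elim_finite_subcover (fun a : P.Mol => Metric.ball (a : P.FreeSpace) η)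
    (fun _ => Metric.isOpen_ball) (fun v _ => by
      obtain ⟨a, ha⟩ := Completion.denseRange_coe.exists_dist_lt v hη
      exact Set.mem_iUnion.2 ⟨a, ha⟩)
  refine ⟨N.biUnion fun a => (P.coeffs a).support, fun v hv => ?_⟩
  obtain ⟨a, ha, h⟩ := Set.mem_iUnion₂.1 (hN hv)
  exact ⟨a, Finset.subset_biUnion_of_mem (fun a => (P.coeffs a).support) ha,
    by rw [← dist_eq_norm]; exact le_of_lt h⟩

theorem hasAP (hsep : ∀ x y : P.M, x ≠ y → 1 ≤ dist x y) (lev : P.M → ℕ) (B : ℕ → ℝ)
    (hB : ∀ x k, lev x ≤ k → dist x P.base ≤ B k)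
    (hret : ∀ k x, lev x ≤ k → ∀ y, ¬ lev y ≤ k → dist x P.base ≤ dist x y) :
    HasAP P.FreeSpace := by
  classical
  intro K hK ε hε
  obtain ⟨Z1, hZ1⟩ := exists_net P K hK (ε / 4) (by positivity)
  obtain ⟨k, hk⟩ : ∃ k, ∀ z ∈ Z1, lev z ≤ k := ⟨Z1.sup lev, fun z hz => Finset.le_sup hz⟩
  obtain ⟨l, hl⟩ : ∃ l : ℝ, l = max 1 (B k) := ⟨_, rfl⟩
  have hl1 : 1 ≤ l := hl ▸ le_max_left _ _
  obtain ⟨Z2, hZ2⟩ := exists_net P K hK (ε / 2 / (l + 1)) (by positivity)
  obtain ⟨T1, a1, a2⟩ := exists_op P (fun x => if lev x ≤ k then x else P.base) 1 one_pos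
    (by simp) (fun x y => by
      rw [one_mul]
      split_ifs with h1 h2 h2
      · exact le_rfl
      · exact hret k x h1 y h2
      · rw [dist_comm, dist_comm x]; exact hret k y h2 x h1
      · simp)
  have key : ∀ x y, x ≠ y → lev x ≤ k → dist x P.base ≤ l * dist x y := fun x y hne h =>
    (hB x k h).trans ((hl ▸ le_max_right _ _ : B k ≤ l).trans
      (le_mul_of_one_le_right (by linarith) (hsep x y hne)))
  obtain ⟨T2, b1, b2⟩ := exists_op P (fun x => if lev x ≤ k ∧ x ∈ Z2 then x else P.base) l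
    (by linarith) (by simp) (fun x y => by
      split_ifs with h1 h2 h2
      · exact le_mul_of_one_le_left dist_nonneg hl1
      · exact key x y (fun e => h2 (e ▸ h1)) h1.1
      · rw [dist_comm, dist_comm x]; exact key y x (fun e => h1 (e ▸ h2)) h2.1
      · rw [dist_self]; positivity)
  refine ⟨T2, finite_rank P _ (insert P.base Z2) (fun x => ?_) T2 b1, fun v hv => ?_⟩
  · split_ifs with h
    · exact Finset.mem_insert_of_mem h.2
    · exact Finset.mem_insert_self _ _
  obtain ⟨a, c1, c2⟩ := hZ1 v hv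
  obtain ⟨b, d1, d2⟩ := hZ2 v hv
  have e1 : T1 a = a := by
    rw [a1, push_congr P (ρ := fun x => if lev x ≤ k then x else P.base) (ρ' := id) a
      (fun x hx => if_pos (hk x (c1 hx))), push_id]
  have e2 : T2 b = T1 b := by
    rw [a1, b1, push_congr P (ρ := fun x => if lev x ≤ k ∧ x ∈ Z2 then x else P.base)
      (ρ' := fun x => if lev x ≤ k then x else P.base) b (fun x hx => by simp only [d1 hx, and_true])]
  have e3 : T2 v - v = T2 (v - b) - T1 (v - b) + (T1 (v - a) - (v - a)) := by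
    rw [map_sub, map_sub, map_sub, e1, e2]; abel
  rw [e3]
  have f1 := b2 (v - b)
  have f2 := a2 (v - b)
  have f3 := a2 (v - a)
  have f4 : (l + 1) * ‖v - b‖ ≤ ε / 2 := by
    rw [le_div_iff₀ (by linarith)] at d2; linarith
  have g1 := norm_add_le (T2 (v - b) - T1 (v - b)) (T1 (v - a) - (v - a))
  have g2 := norm_sub_le (T2 (v - b)) (T1 (v - b))
  have g3 := norm_sub_le (T1 (v - a)) (v - a)
  linarith

theorem of_hasBAP (h : HasBAP P.FreeSpace) : ∃ lam : ℝ, ∀ A : Finset P.M,
    ∃ (S : P.M → P.Mol) (Z : Finset P.M), (∀ p q, ‖S p - S q‖ ≤ lam * dist p q) ∧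
      (∀ a ∈ A, ‖S a - dl P a‖ ≤ 2) ∧
      ∀ p f, (∀ z ∈ Z, f z = 0) → P.pairing (S p) f = 0 := by
  classical
  obtain ⟨lam, h⟩ := h
  refine ⟨2 * lam, fun A => ?_⟩
  obtain ⟨T, hfin, hT, hA⟩ := h ((fun z => ((dl P z : P.Mol) : P.FreeSpace)) '' A)
    (A.finite_toSet.image _).isCompact 1 one_pos
  obtain ⟨B, hB⟩ : ∃ B : ℝ, ∀ a ∈ A, ‖T (dl P a : P.Mol)‖ ≤ B :=
    ⟨∑ a ∈ A, ‖T (dl P a : P.Mol)‖, fun a ha =>
      Finset.single_le_sum (f := fun a => ‖T (dl P a : P.Mol)‖) (fun _ _ => norm_nonneg _) ha⟩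
  let E := LinearMap.range T.toLinearMap
  let b := Module.finBasis ℝ E
  obtain ⟨C, hC, hCb⟩ := b.exists_opNorm_le (F := P.FreeSpace)
  obtain ⟨ε, hε⟩ : ∃ ε : ℝ, ε = 1 / (|B| + 1) := ⟨_, rfl⟩
  have hε0 : 0 < ε := by rw [hε]; positivity
  have hε1 : ε ≤ 1 := by
    rw [hε, div_le_one (by positivity)]; linarith [abs_nonneg B]
  have hμ : ∀ i, ∃ a : P.Mol, dist (b i : P.FreeSpace) a < ε / C := fun i =>
    Completion.denseRange_coe.exists_dist_lt _ (by positivity)
  choose μ hμ using hμ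
  let J : E →ₗ[ℝ] P.Mol := b.constr ℝ μ
  let u : E →L[ℝ] P.FreeSpace := LinearMap.toContinuousLinearMap
    ((Completion.toComplL (𝕜 := ℝ) (E := P.Mol)).toLinearMap ∘ₗ J - E.subtype)
  have hu0 : ∀ e : E, u e = (J e : P.FreeSpace) - e := fun e => rfl
  have hu : ‖u‖ ≤ ε := by
    have := hCb (u := u) (M := ε / C) (by positivity) (fun i => by
      rw [hu0, ← dist_eq_norm, dist_comm]
      simp only [J, Module.Basis.constr_basis]
      exact (hμ i).le)
    rwa [mul_div_cancel₀ _ hC.ne'] at this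
  have hJ : ∀ e : E, ‖(J e : P.FreeSpace) - e‖ ≤ ε * ‖(e : P.FreeSpace)‖ := fun e => by
    rw [← hu0]
    exact (u.le_opNorm e).trans (mul_le_mul_of_nonneg_right hu (norm_nonneg _))
  let τ : P.M → E := fun p => ⟨T (dl P p : P.Mol), ⟨_, rfl⟩⟩
  refine ⟨fun p => J (τ p), Finset.univ.biUnion fun i => (P.coeffs (μ i)).support, ?_, ?_, ?_⟩
  · intro p q
    rw [← map_sub, ← Completion.norm_coe]
    have h1 := hJ (τ p - τ q)
    have h2 : ‖((τ p - τ q : E) : P.FreeSpace)‖ ≤ lam * dist p q := by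
      have : ((τ p - τ q : E) : P.FreeSpace) = T ((dl P p - dl P q : P.Mol)) := by
        rw [Completion.coe_sub, map_sub]; rfl
      rw [this]
      refine (T.le_opNorm _).trans ?_
      rw [Completion.norm_coe]
      exact mul_le_mul hT (norm_dl_sub P p q) (norm_nonneg _) ((norm_nonneg _).trans hT)
    have h3 := norm_sub_norm_le (J (τ p - τ q) : P.FreeSpace) ((τ p - τ q : E) : P.FreeSpace)
    have h4 := mul_le_of_le_one_left (norm_nonneg ((τ p - τ q : E) : P.FreeSpace)) hε1
    linarith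
  · intro a ha
    rw [← Completion.norm_coe, Completion.coe_sub]
    have h1 := hJ (τ a)
    have h2 := hA _ ⟨a, ha, rfl⟩
    have h3 : ε * ‖(τ a : P.FreeSpace)‖ ≤ 1 := by
      rw [hε, one_div, inv_mul_le_iff₀ (by positivity)]
      have := hB a ha
      change ‖T (dl P a : P.Mol)‖ ≤ _
      linarith [le_abs_self B]
    have h4 := norm_sub_le_norm_sub_add_norm_sub (J (τ a) : P.FreeSpace) (τ a : P.FreeSpace)
      ((dl P a : P.Mol) : P.FreeSpace)
    change ‖(τ a : P.FreeSpace) - _‖ ≤ 1 at h2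
    linarith
  · intro p f hf
    have : pairR P f ∘ₗ J = 0 := b.ext fun i => by
      simp only [J, LinearMap.comp_apply, Module.Basis.constr_basis, LinearMap.zero_apply]
      exact pairing_eq_zero P _ f fun x hx =>
        hf x (Finset.mem_biUnion.2 ⟨i, Finset.mem_univ _, hx⟩)
    exact LinearMap.congr_fun this (τ p)

end Crest.Agent.H0154
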