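import Crest.Agent.H0154.Free

/-! The metric space built from a sequence of constraint systems. -/

set_option autoImplicit false

namespace Crest.Agent.H0154

open Crest.AnalysisR

/-- data of a space -/
structure Sp where
  U : ℕ → Type
  R : ℕ → ℕ
  c : ∀ k, U k → U k → ℝ → Prop
  mono : Monotone R
  big : ∀ k, k + 1 ≤ R k
  one : ∀ k u u' a, c k u u' a → 1 ≤ a

namespace Sp

variable (X : Sp)

/-- the points -/
abbrev M : Type := Option (Σ k, X.U k)

/-- the inclusion of a level -/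
def inc (k : ℕ) (u : X.U k) : X.M := some ⟨k, u⟩

theorem inc_inj (k : ℕ) : Function.Injective (X.inc k) := fun u v h => by
  simpa [inc] using h

/-- distance to the base point -/
def D : X.M → ℝ
  | none => 0
  | some z => X.R z.1

/-- the level -/
def lev : X.M → ℕ
  | none => 0
  | some z => z.1

/-- admissible functions -/
def A (f : X.M → ℝ) : Prop :=
  (∀ x, |f x - f none| ≤ X.D x) ∧ ∀ k u u' a, X.c k u u' a → |f (X.inc k u) - f (X.inc k u')| ≤ a

theorem D_nonneg (x : X.M) : 0 ≤ X.D x := by cases x <;> simp [D]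

instance : Nonempty {f // X.A f} :=
  ⟨⟨fun _ => 0, fun x => by simpa using X.D_nonneg x,
    fun k u u' a h => by simpa using zero_le_one.trans (X.one k u u' a h)⟩⟩

/-- the distance -/
noncomputable def d (x y : X.M) : ℝ := ⨆ f : {f // X.A f}, |f.1 x - f.1 y|

theorem bdd (x y : X.M) : BddAbove (Set.range fun f : {f // X.A f} => |f.1 x - f.1 y|) :=
  ⟨X.D x + X.D y, by
    rintro _ ⟨f, rfl⟩
    have h1 := f.2.1 x
    have h2 := f.2.1 y
    have := abs_sub_le (f.1 x) (f.1 none) (f.1 y)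
    rw [abs_sub_comm (f.1 none)] at this
    simp only
    linarith⟩

theorem le_d {f : X.M → ℝ} (h : X.A f) (x y : X.M) : |f x - f y| ≤ X.d x y :=
  le_ciSup (X.bdd x y) ⟨f, h⟩

theorem d_none (x : X.M) : X.d x none ≤ X.D x := ciSup_le fun f => f.2.1 x

theorem d_c {k : ℕ} {u u' : X.U k} {a : ℝ} (h : X.c k u u' a) :
    X.d (X.inc k u) (X.inc k u') ≤ a := ciSup_le fun f => f.2.2 k u u' a h

theorem one_le_d {x y : X.M} (h : x ≠ y) : 1 ≤ X.d x y := by
  classical
  have hb : ∀ u v : X.M, |(if u = x then (1:ℝ) else 0) - (if v = x then 1 else 0)| ≤ 1 := by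
    intro u v; split_ifs <;> simp
  have : X.A (fun z => if z = x then 1 else 0) := by
    refine ⟨fun z => ?_, fun k u u' a hc => (hb _ _).trans (X.one k u u' a hc)⟩
    cases z with
    | none => simp [D]
    | some z =>
      refine (hb _ _).trans ?_
      have := X.big z.1
      change (1:ℝ) ≤ X.R z.1
      exact_mod_cast (by omega : 1 ≤ X.R z.1)
  simpa [h.symm] using X.le_d this x y

/-- the metric -/
@[reducible] noncomputable def met : MetricSpace X.M where
  dist := X.d
  dist_self x := by simp [d]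
  dist_comm x y := by simp only [d, abs_sub_comm]
  dist_triangle x y z := ciSup_le fun f =>
    (abs_sub_le _ (f.1 y) _).trans (add_le_add (X.le_d f.2 x y) (X.le_d f.2 y z))
  eq_of_dist_eq_zero {x y} h := by
    by_contra hne
    have := X.one_le_d hne
    linarith

/-- the pointed space -/
@[reducible] noncomputable def P : PointedMetric := ⟨X.M, X.met, none⟩

/-- extension by zero -/
noncomputable def ext (k : ℕ) : (X.U k → ℝ) →ₗ[ℝ] (X.M → ℝ) :=
  Function.ExtendByZero.linearMap ℝ (X.inc k)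

theorem ext_inc (k : ℕ) (f : X.U k → ℝ) (u : X.U k) : X.ext k f (X.inc k u) = f u :=
  (X.inc_inj k).extend_apply f 0 u

theorem ext_of (k : ℕ) (f : X.U k → ℝ) (x : X.M) (h : ∀ u, X.inc k u ≠ x) : X.ext k f x = 0 :=
  Function.extend_apply' (f := X.inc k) f (0 : X.M → ℝ) x (fun ⟨u, hu⟩ => h u hu)

theorem ext_none (k : ℕ) (f : X.U k → ℝ) : X.ext k f none = 0 :=
  X.ext_of k f _ fun u => by simp [inc]

theorem ext_ne {k j : ℕ} (h : j ≠ k) (f : X.U k → ℝ) (u : X.U j) : X.ext k f (X.inc j u) = 0 :=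
  X.ext_of k f _ fun v hv => h (congrArg X.lev hv).symm

/-- admissible functions on a level -/
def B (k : ℕ) (f : X.U k → ℝ) (l : ℝ) : Prop :=
  (∀ u, |f u| ≤ l * X.R k) ∧ ∀ u u' a, X.c k u u' a → |f u - f u'| ≤ l * a

theorem A_ext {k : ℕ} {f : X.U k → ℝ} (h : X.B k f 1) : X.A (X.ext k f) := by
  refine ⟨fun x => ?_, fun j u u' a hc => ?_⟩
  · rw [ext_none, sub_zero]
    rcases x with _ | ⟨j, u⟩
    · simp [ext_none, D]
    · by_cases e : j = k
      · subst e
        have := h.1 u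
        rw [one_mul, ← X.ext_inc j f u] at this
        exact this
      · have := X.ext_ne e f u
        rw [inc] at this
        rw [this, abs_zero]; exact X.D_nonneg _
  · by_cases e : j = k
    · subst e
      rw [ext_inc, ext_inc]; simpa using h.2 u u' a hc
    · rw [X.ext_ne e, X.ext_ne e]; simpa using zero_le_one.trans (X.one _ u u' a hc)

theorem ext_lip {k : ℕ} {f : X.U k → ℝ} {l : ℝ} (hl : 0 < l) (h : X.B k f l) (x y : X.M) :
    |X.ext k f x - X.ext k f y| ≤ l * X.d x y := by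
  have h1 : X.B k (l⁻¹ • f) 1 := by
    refine ⟨fun u => ?_, fun u u' a hc => ?_⟩
    · rw [Pi.smul_apply, smul_eq_mul, abs_mul, abs_of_pos (inv_pos.2 hl), inv_mul_le_iff₀ hl,
        one_mul]
      exact h.1 u
    · rw [Pi.smul_apply, Pi.smul_apply, smul_eq_mul, smul_eq_mul, ← mul_sub, abs_mul,
        abs_of_pos (inv_pos.2 hl), inv_mul_le_iff₀ hl, one_mul]
      exact h.2 u u' a hc
  have h2 := X.le_d (X.A_ext h1) x y
  rwa [map_smul, Pi.smul_apply, Pi.smul_apply, smul_eq_mul, smul_eq_mul, ← mul_sub, abs_mul,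
    abs_of_pos (inv_pos.2 hl), inv_mul_le_iff₀ hl] at h2

theorem R_le_d (k : ℕ) (u : X.U k) (y : X.M) (h : ∀ v, X.inc k v ≠ y) :
    (X.R k : ℝ) ≤ X.d (X.inc k u) y := by
  have h1 : X.B k (fun _ => X.R k) 1 :=
    ⟨fun u => by simp, fun u u' a hc => by simpa using zero_le_one.trans (X.one _ u u' a hc)⟩
  have := X.le_d (X.A_ext h1) (X.inc k u) y
  rwa [ext_inc, X.ext_of k _ y h, sub_zero, Nat.abs_cast] at this

theorem basic (hc : ∀ k, Countable (X.U k)) (hn : ∀ k, Infinite (X.U k)) :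
    X.P.IsCountableSeparatedUnboundedNonproper := by
  letI := X.met
  refine ⟨inferInstanceAs (Countable X.M), fun x y h => X.one_le_d h, fun h => ?_, fun h => ?_⟩
  · obtain ⟨C, hC⟩ := Metric.isBounded_iff.1 h
    obtain ⟨k, hk⟩ := exists_nat_gt C
    obtain ⟨u⟩ : Nonempty (X.U k) := inferInstance
    have h1 : X.d (X.inc k u) none ≤ C := hC (Set.mem_univ _) (Set.mem_univ _)
    have h2 := X.R_le_d k u none (fun v => by simp [inc])
    have h3 : (k : ℝ) + 1 ≤ X.R k := by exact_mod_cast X.big k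
    linarith
  · have : DiscreteTopology X.M :=
      DiscreteTopology.of_forall_le_dist one_pos fun x y h => X.one_le_d h
    have h1 := (isCompact_closedBall (none : X.M) (X.R 0)).finite_of_discrete
    refine Set.infinite_range_of_injective (X.inc_inj 0) (h1.subset ?_)
    rintro _ ⟨u, rfl⟩
    exact X.d_none _

theorem ap : HasAP X.P.FreeSpace := by
  refine hasAP X.P (fun x y h => X.one_le_d h) X.lev (fun k => X.R k) (fun x k h => ?_)
    (fun k x h y hy => ?_)
  · refine (X.d_none x).trans ?_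
    rcases x with _ | ⟨j, u⟩
    · simp [D]
    · exact Nat.cast_le.2 (X.mono h)
  · refine (X.d_none x).trans ?_
    rcases x with _ | ⟨j, u⟩
    · exact @dist_nonneg _ X.met.toPseudoMetricSpace _ _
    · exact X.R_le_d j u y fun v hv => hy (hv ▸ h)

theorem bap (h : HasBAP X.P.FreeSpace) : ∃ lam : ℝ, ∀ k (A : Finset (X.U k)),
    ∃ (T : X.U k → (X.U k → ℝ) →ₗ[ℝ] ℝ) (Z : Finset (X.U k)),
      (∀ p q a f l, X.c k p q a → 0 < l → X.B k f l → |T p f - T q f| ≤ lam * a * l) ∧
      (∀ a ∈ A, ∀ f l, 0 < l → X.B k f l → |T a f - f a| ≤ 2 * l) ∧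
      ∀ p f, (∀ z ∈ Z, f z = 0) → T p f = 0 := by
  classical
  obtain ⟨lam, h⟩ := of_hasBAP X.P h
  refine ⟨|lam|, fun k A => ?_⟩
  obtain ⟨S, Z, h1, h2, h3⟩ := h (A.image (X.inc k))
  refine ⟨fun p => pairL X.P (S (X.inc k p)) ∘ₗ X.ext k,
    Z.preimage (X.inc k) (X.inc_inj k).injOn, ?_, ?_, ?_⟩
  · intro p q a f l hc hl hf
    have e1 := abs_pairing_le_norm X.P (S (X.inc k p) - S (X.inc k q)) (X.ext k f) l hl
      (X.ext_none k f) (X.ext_lip hl hf)
    rw [pairing_sub] at e1
    refine e1.trans ?_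
    rw [mul_comm]
    refine mul_le_mul_of_nonneg_right ((h1 _ _).trans ?_) hl.le
    exact mul_le_mul (le_abs_self _) (X.d_c hc) (@dist_nonneg _ X.met.toPseudoMetricSpace _ _)
      (abs_nonneg _)
  · intro a ha f l hl hf
    have e1 := abs_pairing_le_norm X.P (S (X.inc k a) - dl X.P (X.inc k a)) (X.ext k f) l hl
      (X.ext_none k f) (X.ext_lip hl hf)
    rw [pairing_sub, pairing_dl, ext_inc] at e1
    refine e1.trans ?_
    rw [mul_comm]
    exact mul_le_mul_of_nonneg_right (h2 _ (Finset.mem_image_of_mem _ ha)) hl.le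
  · intro p f hf
    refine h3 _ _ fun z hz => ?_
    by_cases e : ∃ u, X.inc k u = z
    · obtain ⟨u, rfl⟩ := e
      rw [ext_inc]; exact hf u (Finset.mem_preimage.2 hz)
    · exact X.ext_of k f z fun u hu => e ⟨u, hu⟩

end Sp

end Crest.Agent.H0154
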