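import Crest.Agent.H0154.Words

/-! Tent test functions on a labelled graph over a base of large girth. -/

set_option autoImplicit false

namespace Crest.Agent.H0154

open Finset

/-- a labelled graph `V` over a base `S` of girth `R` -/
structure Ctx (ι S V : Type) where
  s : ι → S → S
  t : ι → V → V
  π : V → S
  R : ℕ
  hR : 1 ≤ R
  hs : ∀ j x, s j (s j x) = x
  hI : Inj s R
  inv : ∀ j x, t j (t j x) = x
  compat : ∀ j x, t j x ≠ x → π (t j x) = s j (π x)

namespace Ctx

variable {ι S V : Type} (c : Ctx ι S V)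

/-- `v` leads from the base point of `u` to `σ` -/
def Bk (σ : S) (u : V) (v : List ι) : Prop := Red v ∧ v.length ≤ c.R ∧ act c.s v (c.π u) = σ

theorem Bk.unique {c : Ctx ι S V} {σ : S} {u : V} {v v' : List ι} (h : c.Bk σ u v)
    (h' : c.Bk σ u v') : v = v' :=
  c.hI _ v v' h.1 h'.1 h.2.1 h'.2.1 (h.2.2.trans h'.2.2.symm)

open Classical in
/-- test function attached to the fibre over `σ` -/
noncomputable def fn (σ : S) (γ : List ι → V → ℝ) (u : V) : ℝ :=
  if h : ∃ v, c.Bk σ u v then γ h.choose u else 0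

theorem fn_eq {σ : S} {u : V} {v : List ι} (h : c.Bk σ u v) (γ : List ι → V → ℝ) :
    c.fn σ γ u = γ v u := by
  unfold fn
  rw [dif_pos ⟨v, h⟩, (Exists.choose_spec ⟨v, h⟩).unique h]

theorem fn_cases (σ : S) (u : V) :
    (∀ γ, c.fn σ γ u = 0) ∨ ∃ v, c.Bk σ u v ∧ ∀ γ, c.fn σ γ u = γ v u := by
  by_cases h : ∃ v, c.Bk σ u v
  · obtain ⟨v, hv⟩ := h
    exact Or.inr ⟨v, hv, c.fn_eq hv⟩
  · exact Or.inl fun γ => dif_neg h

theorem fn_congr_fibre (σ : S) (γ : List ι → ℝ) {u u' : V} (h : c.π u = c.π u') :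
    c.fn σ (fun v _ => γ v) u = c.fn σ (fun v _ => γ v) u' := by
  rcases c.fn_cases σ u with h1 | ⟨v, hv, h1⟩
  · rcases c.fn_cases σ u' with h2 | ⟨v, hv, h2⟩
    · rw [h1, h2]
    · rw [c.fn_eq (u := u) (v := v) ⟨hv.1, hv.2.1, by rw [h]; exact hv.2.2⟩, h2]
  · rw [c.fn_eq (u := u') (v := v) ⟨hv.1, hv.2.1, by rw [← h]; exact hv.2.2⟩, h1]

theorem fn_lip (σ : S) (γ : List ι → V → ℝ) (l : ℝ) (hl : 0 ≤ l)
    (h0 : ∀ v u, v.length = c.R → γ v u = 0)
    (h1 : ∀ j v u, c.t j u ≠ u → c.Bk σ u v → Red (j :: v) → v.length < c.R →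
      |γ v u - γ (j :: v) (c.t j u)| ≤ l) (j : ι) (u : V) :
    |c.fn σ γ u - c.fn σ γ (c.t j u)| ≤ l := by
  have key : ∀ u, c.t j u ≠ u → c.fn σ γ u ≠ 0 → |c.fn σ γ u - c.fn σ γ (c.t j u)| ≤ l := by
    intro u hu hne
    rcases c.fn_cases σ u with h | ⟨v, hv, h⟩
    · exact absurd (h γ) hne
    have hlt : v.length < c.R := lt_of_le_of_ne hv.2.1 fun e => hne (by rw [h, h0 v u e])
    by_cases hj : v.head? = some j
    · cases v with
      | nil => simp at hj
      | cons a v =>
        have ha : a = j := by simpa using hj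
        subst ha
        have hb : c.Bk σ (c.t a u) v := ⟨(red_cons.1 hv.1).2, by simp at hlt; omega, by
          rw [c.compat a u hu]; exact hv.2.2⟩
        have := h1 a v (c.t a u) (by rw [c.inv]; exact hu.symm) hb hv.1 (by simp at hlt; omega)
        rw [c.inv] at this
        rw [h, c.fn_eq hb, abs_sub_comm]
        exact this
    · have hr : Red (j :: v) := red_cons.2 ⟨hj, hv.1⟩
      have hb : c.Bk σ (c.t j u) (j :: v) := ⟨hr, hlt, by
        rw [c.compat j u hu, act_cons, c.hs]; exact hv.2.2⟩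
      rw [h, c.fn_eq hb]
      exact h1 j v u hu hv hr hlt
  by_cases hu : c.t j u = u
  · rw [hu]; simpa using hl
  by_cases a : c.fn σ γ u = 0
  · by_cases b : c.fn σ γ (c.t j u) = 0
    · rw [a, b]; simpa using hl
    · have := key (c.t j u) (by rw [c.inv]; exact fun e => hu e.symm) b
      rw [c.inv, abs_sub_comm] at this
      exact this
  · exact key u hu a

/-- the tent -/
noncomputable def tent (v : List ι) : ℝ := 1 - (v.length : ℝ) / c.R

theorem R_pos : (0 : ℝ) < c.R := by exact_mod_cast c.hR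

theorem tent_nil : c.tent [] = 1 := by simp [tent]

theorem tent_top {v : List ι} (h : v.length = c.R) : c.tent v = 0 := by
  unfold tent; rw [h, div_self c.R_pos.ne', sub_self]

theorem tent_nonneg {v : List ι} (h : v.length ≤ c.R) : 0 ≤ c.tent v := by
  unfold tent
  rw [sub_nonneg, div_le_one c.R_pos]
  exact_mod_cast h

theorem tent_le (v : List ι) : c.tent v ≤ 1 := by
  unfold tent
  have := c.R_pos
  have : 0 ≤ (v.length : ℝ) / c.R := by positivity
  linarith

theorem tent_step {v v' : List ι} (h : v'.length = v.length + 1) (b : ℝ) (hb : |b| ≤ 1) :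
    |c.tent v * b - c.tent v' * b| ≤ 1 / c.R := by
  have e : c.tent v * b - c.tent v' * b = 1 / c.R * b := by
    unfold tent; rw [h]; push_cast; ring
  have := c.R_pos
  rw [e, abs_mul, abs_of_pos (by positivity)]
  exact mul_le_of_le_one_right (by positivity) hb

theorem fn_bound (σ : S) (b : List ι → V → ℝ) (hb : ∀ v u, |b v u| ≤ 1) (u : V) :
    |c.fn σ (fun v u => c.tent v * b v u) u| ≤ 1 := by
  rcases c.fn_cases σ u with h | ⟨v, hv, h⟩
  · rw [h]; simp
  · rw [h, abs_mul, abs_of_nonneg (c.tent_nonneg hv.2.1)]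
    exact mul_le_one₀ (c.tent_le v) (abs_nonneg _) (hb v u)

theorem opn_back {j : ι} {u : V} (hu : c.t j u ≠ u) (v : List ι) :
    Opn c.t (j :: v) (c.t j u) ↔ Opn c.t v u := by
  rw [opn_cons, c.inv]
  exact ⟨fun h => h.2, fun h => ⟨hu.symm, h⟩⟩

theorem act_back (j : ι) (u : V) (v : List ι) : act c.t (j :: v) (c.t j u) = act c.t v u := by
  rw [act_cons, c.inv]

theorem pi_act {v : List ι} {u : V} (h : Opn c.t v u) : c.π (act c.t v u) = act c.s v (c.π u) := by
  induction v generalizing u with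
  | nil => rfl
  | cons j v ih => rw [act_cons, ih h.2, c.compat j u h.1, act_cons]

open Classical in
/-- value `β` read at the root -/
noncomputable def rt (β : V → ℝ) (v : List ι) (u : V) : ℝ :=
  if Opn c.t v u then β (act c.t v u) else 0

theorem rt_back (β : V → ℝ) {j : ι} {u : V} (hu : c.t j u ≠ u) (v : List ι) :
    c.rt β (j :: v) (c.t j u) = c.rt β v u := by
  unfold rt
  rw [c.act_back]
  by_cases h : Opn c.t v u
  · rw [if_pos h, if_pos ((c.opn_back hu v).2 h)]
  · rw [if_neg h, if_neg (fun h' => h ((c.opn_back hu v).1 h'))]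

theorem rt_bound {β : V → ℝ} (hβ : ∀ x, |β x| ≤ 1) (v : List ι) (u : V) : |c.rt β v u| ≤ 1 := by
  unfold rt
  split_ifs
  · exact hβ _
  · simp

/-- weighted sum of the tents around the points of the fibre over `σ` -/
noncomputable def fb (σ : S) (β : V → ℝ) : V → ℝ := c.fn σ (fun v u => c.tent v * c.rt β v u)

theorem fb_bound (σ : S) {β : V → ℝ} (hβ : ∀ x, |β x| ≤ 1) (u : V) : |c.fb σ β u| ≤ 1 :=
  c.fn_bound σ _ (c.rt_bound hβ) u

theorem fb_lip (σ : S) {β : V → ℝ} (hβ : ∀ x, |β x| ≤ 1) (j : ι) (u : V) :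
    |c.fb σ β u - c.fb σ β (c.t j u)| ≤ 1 / c.R := by
  have := c.R_pos
  refine c.fn_lip σ _ _ (by positivity) (fun v u h => by rw [c.tent_top h, zero_mul]) ?_ j u
  intro j v u hu _ _ _
  rw [c.rt_back β hu]
  exact c.tent_step rfl _ (c.rt_bound hβ _ _)

theorem fb_sum {κ : Type} (σ : S) (I : Finset κ) (ε : κ → ℝ) (β : κ → V → ℝ) :
    ∑ k ∈ I, ε k • c.fb σ (β k) = c.fb σ (∑ k ∈ I, ε k • β k) := by
  funext u
  rw [Finset.sum_apply]
  unfold fb
  rcases c.fn_cases σ u with h | ⟨v, hv, h⟩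
  · simp [h]
  · simp only [Pi.smul_apply, h, rt, smul_eq_mul]
    split_ifs
    · rw [Finset.sum_apply, mul_sum]
      exact sum_congr rfl fun k _ => by simp; ring
    · simp

theorem fb_congr (σ : S) {β β' : V → ℝ} (u : V)
    (h : ∀ v, Opn c.t v u → c.π (act c.t v u) = σ → β (act c.t v u) = β' (act c.t v u)) :
    c.fb σ β u = c.fb σ β' u := by
  unfold fb
  rcases c.fn_cases σ u with h1 | ⟨v, hv, h1⟩
  · rw [h1, h1]
  · rw [h1, h1]
    unfold rt
    split_ifs with h2
    · rw [h v h2 (by rw [c.pi_act h2, hv.2.2])]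
    · rfl

theorem fb_shift (σ : S) (i : ι) {β : V → ℝ} (hβ : ∀ x, |β x| ≤ 1)
    (hs : ∀ x, β x ≠ 0 → c.t i x ≠ x) (u : V) :
    |c.fb σ β u - c.fb (c.s i σ) (fun y => β (c.t i y)) u| ≤ 1 / c.R := by
  have key : ∀ (σ : S) (β : V → ℝ), (∀ x, |β x| ≤ 1) → (∀ x, β x ≠ 0 → c.t i x ≠ x) →
      c.fb σ β u ≠ 0 → |c.fb σ β u - c.fb (c.s i σ) (fun y => β (c.t i y)) u| ≤ 1 / c.R := by
    intro σ β hβ hs hne
    unfold fb at hne ⊢
    rcases c.fn_cases σ u with h | ⟨v, hv, h⟩
    · exact absurd (h _) hne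
    rw [h] at hne ⊢
    have hlt : v.length < c.R :=
      lt_of_le_of_ne hv.2.1 fun e => hne (by rw [c.tent_top e, zero_mul])
    have ho : Opn c.t v u := by
      by_contra h'
      exact hne (by unfold rt; rw [if_neg h', mul_zero])
    have hb : β (act c.t v u) ≠ 0 := fun h' =>
      hne (by unfold rt; rw [if_pos ho, h', mul_zero])
    by_cases hl : v.getLast? = some i
    · obtain ⟨w, rfl⟩ := List.getLast?_eq_some_iff.1 hl
      have hw : c.Bk (c.s i σ) u w := ⟨hv.1.left, by simp at hlt; omega, by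
        rw [← hv.2.2, act_append, act_cons, act_nil, c.hs]⟩
      rw [c.fn_eq hw]
      have e : c.rt (fun y => β (c.t i y)) w u = c.rt β (w ++ [i]) u := by
        unfold rt
        rw [if_pos ho, if_pos ((opn_append _ _ _ _).1 ho).1, act_append]
        rfl
      rw [e, abs_sub_comm]
      exact c.tent_step (by simp) _ (c.rt_bound hβ _ _)
    · have hw : c.Bk (c.s i σ) u (v ++ [i]) := ⟨red_concat hv.1 hl, by simp; omega, by
        rw [act_append, hv.2.2]; rfl⟩
      rw [c.fn_eq hw]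
      have e : c.rt (fun y => β (c.t i y)) (v ++ [i]) u = c.rt β v u := by
        unfold rt
        rw [if_pos ho, if_pos ((opn_append c.t v [i] u).2 ⟨ho, hs _ hb, trivial⟩), act_append,
          act_cons, act_nil]
        simp only [c.inv]
      rw [e]
      exact c.tent_step (by simp) _ (c.rt_bound hβ _ _)
  have := c.R_pos
  by_cases a : c.fb σ β u = 0
  · by_cases b : c.fb (c.s i σ) (fun y => β (c.t i y)) u = 0
    · rw [a, b]; simp
    · have := key (c.s i σ) (fun y => β (c.t i y)) (fun _ => hβ _) (fun y hy => by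
        have := hs _ hy
        rw [c.inv] at this
        exact this.symm) b
      simp only [c.hs, c.inv] at this
      rw [abs_sub_comm]
      exact this
  · exact key σ β hβ hs a

open Classical in
/-- indicator of the points with an edge labelled `i` -/
noncomputable def has (i : ι) (x : V) : ℝ := if c.t i x ≠ x then 1 else 0

theorem has_bound (i : ι) (x : V) : |c.has i x| ≤ 1 := by
  unfold has; split_ifs <;> simp

theorem one_sub_rt_bound (i : ι) (v : List ι) (u : V) : |1 - c.rt (c.has i) v u| ≤ 1 := by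
  unfold rt has; split_ifs <;> simp

/-- the tent of the base -/
noncomputable def Cf (σ : S) : V → ℝ := c.fn σ (fun v _ => c.tent v)

open Classical in
noncomputable def Ef (σ : S) (i : ι) : V → ℝ :=
  c.fn σ (fun v u => c.tent v * if v.getLast? = some i then 0 else 1 - c.rt (c.has i) v u)

open Classical in
noncomputable def Bf (σ : S) (i : ι) : V → ℝ :=
  c.fn σ (fun v u => c.tent v * if v.getLast? = some i then 1 - c.rt (c.has i) v u else 0)

theorem Cf_split (σ : S) (i : ι) : c.Cf σ = c.Ef σ i + c.Bf σ i + c.fb σ (c.has i) := by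
  funext u
  simp only [Pi.add_apply, Cf, Ef, Bf, fb]
  rcases c.fn_cases σ u with h | ⟨v, hv, h⟩
  · simp [h]
  · simp only [h]
    split_ifs <;> ring

theorem Cf_self (u : V) : c.Cf (c.π u) u = 1 := by
  unfold Cf
  rw [c.fn_eq (σ := c.π u) (u := u) (v := []) ⟨red_nil, Nat.zero_le _, rfl⟩, c.tent_nil]

theorem Cf_bound (σ : S) (u : V) : |c.Cf σ u| ≤ 1 := by
  have := c.fn_bound σ (fun _ _ => 1) (by simp) u
  simpa [Cf] using this

theorem Cf_lip (σ : S) (j : ι) (u : V) : |c.Cf σ u - c.Cf σ (c.t j u)| ≤ 1 / c.R := by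
  have := c.R_pos
  refine c.fn_lip σ _ _ (by positivity) (fun v u h => c.tent_top h) ?_ j u
  intro j v u _ _ _ _
  have := c.tent_step (v := v) (v' := j :: v) rfl 1 (by simp)
  simpa using this

theorem Ef_bound (σ : S) (i : ι) (u : V) : |c.Ef σ i u| ≤ 1 := by
  refine c.fn_bound σ _ (fun v u => ?_) u
  split_ifs
  · simp
  · exact c.one_sub_rt_bound _ _ _

theorem Bf_bound (σ : S) (i : ι) (u : V) : |c.Bf σ i u| ≤ 1 := by
  refine c.fn_bound σ _ (fun v u => ?_) u
  split_ifs
  · exact c.one_sub_rt_bound _ _ _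
  · simp

theorem Ef_lip (σ : S) (i j : ι) (u : V) : |c.Ef σ i u - c.Ef σ i (c.t j u)| ≤ 1 / c.R := by
  have := c.R_pos
  refine c.fn_lip σ _ _ (by positivity) (fun v u h => by rw [c.tent_top h, zero_mul]) ?_ j u
  intro j v u hu _ _ _
  rw [c.rt_back _ hu]
  by_cases hh : (j :: v).getLast? = some i ↔ v.getLast? = some i
  · by_cases h2 : v.getLast? = some i
    · rw [if_pos h2, if_pos (hh.2 h2)]
      exact c.tent_step rfl _ (by simp)
    · rw [if_neg h2, if_neg (fun h => h2 (hh.1 h))]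
      exact c.tent_step rfl _ (c.one_sub_rt_bound _ _ _)
  · cases v with
    | cons a v => exact absurd (by rw [List.getLast?_cons_cons]) hh
    | nil =>
      have e : j = i := by simpa using hh
      subst e
      have e2 : c.rt (c.has j) [] u = 1 := by
        unfold rt has
        rw [if_pos (opn_nil _ _), act_nil, if_pos hu]
      rw [e2]
      simp

theorem Bf_supp {σ : S} {i : ι} {u : V} (h : c.Bf σ i u ≠ 0) :
    ∃ v, c.Bk σ u v ∧ v.getLast? = some i := by
  unfold Bf at h
  rcases c.fn_cases σ u with h1 | ⟨v, hv, h1⟩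
  · exact absurd (h1 _) h
  · refine ⟨v, hv, ?_⟩
    by_contra h2
    rw [h1, if_neg h2, mul_zero] at h
    exact h rfl

theorem Ef_supp {σ : S} {i : ι} {u : V} (h : c.Ef (c.s i σ) i u ≠ 0) :
    ∃ v, c.Bk σ u v ∧ v.getLast? = some i := by
  unfold Ef at h
  rcases c.fn_cases (c.s i σ) u with h1 | ⟨v, hv, h1⟩
  · exact absurd (h1 _) h
  · rw [h1] at h
    have hlt : v.length < c.R :=
      lt_of_le_of_ne hv.2.1 fun e => h (by rw [c.tent_top e, zero_mul])
    have hl : v.getLast? ≠ some i := fun e => h (by rw [if_pos e, mul_zero])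
    refine ⟨v ++ [i], ⟨red_concat hv.1 hl, by simp; omega, ?_⟩, by simp⟩
    rw [act_append, hv.2.2, act_cons, act_nil, c.hs]

end Ctx

end Crest.Agent.H0154
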