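import Mathlib

/-! Words acting on labelled sets; finite labelled sets of large girth. -/

set_option autoImplicit false

namespace Crest.Agent.H0154

/-- action of a word, first letter first -/
def act {ι X : Type} (s : ι → X → X) (v : List ι) (x : X) : X := v.foldl (fun y j => s j y) x

@[simp] theorem act_nil {ι X : Type} (s : ι → X → X) (x : X) : act s [] x = x := rfl

@[simp] theorem act_cons {ι X : Type} (s : ι → X → X) (j : ι) (v : List ι) (x : X) :
    act s (j :: v) x = act s v (s j x) := rfl

theorem act_append {ι X : Type} (s : ι → X → X) (v w : List ι) (x : X) :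
    act s (v ++ w) x = act s w (act s v x) := List.foldl_append

/-- reduced words -/
def Red {ι : Type} (v : List ι) : Prop := v.IsChain (· ≠ ·)

@[simp] theorem red_nil {ι : Type} : Red ([] : List ι) := List.isChain_nil

theorem red_cons {ι : Type} {j : ι} {v : List ι} : Red (j :: v) ↔ v.head? ≠ some j ∧ Red v := by
  unfold Red
  rw [List.isChain_cons]
  refine and_congr_left fun _ => ?_
  constructor
  · intro h h'; exact h j h' rfl
  · intro h y hy e; subst e; exact h hy

theorem red_singleton {ι : Type} (j : ι) : Red [j] := List.isChain_singleton j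

theorem Red.left {ι : Type} {v w : List ι} (h : Red (v ++ w)) : Red v :=
  List.IsChain.left_of_append h

theorem Red.right {ι : Type} {v w : List ι} (h : Red (v ++ w)) : Red w :=
  List.IsChain.right_of_append h

theorem Red.reverse {ι : Type} {v : List ι} (h : Red v) : Red v.reverse := by
  unfold Red at h ⊢
  rw [List.isChain_reverse]
  exact h.imp fun _ _ h => h.symm

theorem red_concat {ι : Type} {j : ι} {v : List ι} (h : Red v) (hj : v.getLast? ≠ some j) :
    Red (v ++ [j]) := by
  have : Red (j :: v.reverse) := red_cons.2 ⟨by simpa using hj, h.reverse⟩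
  simpa using this.reverse

/-- every step of the word moves -/
def Opn {ι X : Type} (t : ι → X → X) (v : List ι) : X → Prop :=
  List.rec (fun _ => True) (fun j _ ih x => t j x ≠ x ∧ ih (t j x)) v

@[simp] theorem opn_nil {ι X : Type} (t : ι → X → X) (x : X) : Opn t [] x := trivial

@[simp] theorem opn_cons {ι X : Type} (t : ι → X → X) (j : ι) (v : List ι) (x : X) :
    Opn t (j :: v) x ↔ t j x ≠ x ∧ Opn t v (t j x) := Iff.rfl

theorem opn_append {ι X : Type} (t : ι → X → X) (v w : List ι) (x : X) :
    Opn t (v ++ w) x ↔ Opn t v x ∧ Opn t w (act t v x) := by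
  induction v generalizing x with
  | nil => simp
  | cons j v ih => simp [ih, and_assoc]

/-- reduced words of length at most `R` act freely -/
def Inj {ι X : Type} (s : ι → X → X) (R : ℕ) : Prop :=
  ∀ x v v', Red v → Red v' → v.length ≤ R → v'.length ≤ R → act s v x = act s v' x → v = v'

theorem Inj.mono {ι X : Type} {s : ι → X → X} {R R' : ℕ} (h : Inj s R) (hR : R' ≤ R) : Inj s R' :=
  fun x v v' a b c d e => h x v v' a b (c.trans hR) (d.trans hR) e

theorem Inj.move {ι X : Type} {s : ι → X → X} {R : ℕ} (h : Inj s R) (hR : 1 ≤ R) (j : ι) (x : X) :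
    s j x ≠ x := by
  intro e
  have := h x [j] [] (red_singleton j) red_nil hR (Nat.zero_le _) e
  simp at this

theorem act_reverse {ι X : Type} {s : ι → X → X} (hs : ∀ j x, s j (s j x) = x) (v : List ι)
    (x : X) : act s v.reverse (act s v x) = x := by
  induction v generalizing x with
  | nil => rfl
  | cons j v ih => rw [act_cons, List.reverse_cons, act_append, ih]; simp [hs]

theorem act_injective {ι X : Type} {s : ι → X → X} (hs : ∀ j x, s j (s j x) = x) (v : List ι) :
    Function.Injective (act s v) := fun x y h => by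
  rw [← act_reverse hs v x, h, act_reverse hs]

/-- reduced words of length at most `R` -/
abbrev Wd (ι : Type) (R : ℕ) : Type := {v : List ι // Red v ∧ v.length ≤ R}

instance (ι : Type) [Finite ι] (R : ℕ) : Finite (Wd ι R) :=
  ((List.finite_length_le ι R).subset (t := {v | Red v ∧ v.length ≤ R}) fun _ h => h.2).to_subtype

open Classical in
noncomputable def tau {ι : Type} (R : ℕ) (j : ι) (w : Wd ι R) : Wd ι R :=
  if w.1.head? = some j then
    ⟨w.1.tail, List.IsChain.tail w.2.1, le_trans (by simp) w.2.2⟩
  else if h : w.1.head? ≠ some j ∧ w.1.length < R then ⟨j :: w.1, red_cons.2 ⟨h.1, w.2.1⟩, h.2⟩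
  else w

theorem tau_cons {ι : Type} {R : ℕ} (j : ι) (w : Wd ι R) (h1 : w.1.head? ≠ some j)
    (h2 : w.1.length < R) : (tau R j w).1 = j :: w.1 := by
  unfold tau
  rw [if_neg h1, dif_pos ⟨h1, h2⟩]

theorem tau_tail {ι : Type} {R : ℕ} (j : ι) (w : Wd ι R) (h1 : w.1.head? = some j) :
    (tau R j w).1 = w.1.tail := by
  unfold tau
  rw [if_pos h1]

theorem tau_fix {ι : Type} {R : ℕ} (j : ι) (w : Wd ι R) (h1 : w.1.head? ≠ some j)
    (h2 : ¬ w.1.length < R) : tau R j w = w := by
  unfold tau
  rw [if_neg h1, dif_neg (fun h => h2 h.2)]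

theorem tau_tau {ι : Type} (R : ℕ) (j : ι) : Function.Involutive (tau R j) := by
  intro w
  by_cases h1 : w.1.head? = some j
  · obtain ⟨v, hv, hl⟩ := w
    cases v with
    | nil => simp at h1
    | cons a v =>
      have ha : a = j := by simpa using h1
      subst ha
      have e := tau_tail a _ h1
      apply Subtype.ext
      rw [tau_cons a _ (by rw [e]; exact (red_cons.1 hv).1) (by rw [e]; simpa using hl), e]
      rfl
  · by_cases h2 : w.1.length < R
    · have e := tau_cons j w h1 h2
      apply Subtype.ext
      rw [tau_tail j _ (by rw [e]; rfl), e]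
      rfl
    · rw [tau_fix j w h1 h2, tau_fix j w h1 h2]

theorem act_tau {ι : Type} {R : ℕ} (v : List ι) (w : Wd ι R) (h1 : Red (v.reverse ++ w.1))
    (h2 : v.length + w.1.length ≤ R) : (act (tau R) v w).1 = v.reverse ++ w.1 := by
  induction v generalizing w with
  | nil => rfl
  | cons j v ih =>
    rw [List.reverse_cons, List.append_assoc, List.singleton_append] at h1 ⊢
    rw [List.length_cons] at h2
    have e := tau_cons j w (red_cons.1 h1.right).1 (by omega)
    rw [act_cons, ih _ (by rw [e]; exact h1) (by rw [e, List.length_cons]; omega), e]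

theorem exists_girth (ι : Type) [Finite ι] (R : ℕ) :
    ∃ (X : Type) (_ : Fintype X) (_ : Nonempty X) (s : ι → X → X),
      (∀ j x, s j (s j x) = x) ∧ Inj s R := by
  classical
  refine ⟨Equiv.Perm (Wd ι R), Fintype.ofFinite _, inferInstance,
    fun j g => (tau_tau R j).toPerm * g, fun j g => ?_, ?_⟩
  · ext w; simp [tau_tau R j _]
  · have key : ∀ (v : List ι) (g : Equiv.Perm (Wd ι R)) (w : Wd ι R),
        act (fun j g => (tau_tau R j).toPerm * g) v g w = act (tau R) v (g w) := by
      intro v
      induction v with
      | nil => intro g w; rfl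
      | cons j v ih => intro g w; rw [act_cons, ih]; rfl
    intro g v v' hv hv' hl hl' e
    let w0 : Wd ι R := ⟨[], red_nil, Nat.zero_le _⟩
    have e1 := congrArg (fun h : Equiv.Perm (Wd ι R) => (h (g.symm w0)).1) e
    simp only [key, Equiv.apply_symm_apply] at e1
    rw [act_tau v w0 (by simpa [w0] using hv.reverse) (by simpa [w0] using hl),
      act_tau v' w0 (by simpa [w0] using hv'.reverse) (by simpa [w0] using hl')] at e1
    simpa [w0] using e1

theorem act_prod {ι X Y : Type} (s : ι → X → X) (s' : ι → Y → Y) (v : List ι) (x : X × Y) :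
    act (fun j (z : X × Y) => (s j z.1, s' j z.2)) v x = (act s v x.1, act s' v x.2) := by
  induction v generalizing x with
  | nil => rfl
  | cons j v ih => rw [act_cons, ih]; rfl

/-- covers of arbitrarily large girth -/
theorem exists_cover {ι S : Type} [Finite ι] [Fintype S] (s : ι → S → S)
    (hs : ∀ j x, s j (s j x) = x) (R : ℕ) :
    ∃ (X : Type) (_ : Fintype X) (t : ι → X → X) (π : X → S),
      (∀ j x, t j (t j x) = x) ∧ Inj t R ∧ Function.Surjective π ∧
        ∀ j x, π (t j x) = s j (π x) := by
  obtain ⟨Y, _, _, s', h1, h2⟩ := exists_girth ι R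
  refine ⟨S × Y, inferInstance, fun j z => (s j z.1, s' j z.2), Prod.fst, fun j x => ?_, ?_,
    Prod.fst_surjective, fun _ _ => rfl⟩
  · simp [hs, h1]
  · intro x v v' a b c d e
    rw [act_prod, act_prod] at e
    exact h2 x.2 v v' a b c d (congrArg Prod.snd e)

end Crest.Agent.H0154
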